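import Mathlib

/-!
Systems of equations over a group.
-/

namespace Vale.Agent.P174

universe u

/-- The exponent-sum homomorphism `G * F_n → ℤ^n`, killing `G` and sending `x_j` to `e_j`. -/
noncomputable def expSum (G : Type u) [Group G] (n : ℕ) :
    Monoid.Coprod G (FreeGroup (Fin n)) →* Multiplicative (Fin n → ℤ) :=
  Monoid.Coprod.lift 1 (FreeGroup.lift fun j => Multiplicative.ofAdd (Pi.single j 1))

/-- The system `w` is nonsingular: its exponent-sum rows are linearly independent over `ℚ`. -/
def Nonsingular {G : Type u} [Group G] {m n : ℕ}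
    (w : Fin m → Monoid.Coprod G (FreeGroup (Fin n))) : Prop :=
  LinearIndependent ℚ (fun i => fun j => ((Multiplicative.toAdd (expSum G n (w i)) j : ℤ) : ℚ))

/-- The system `w` is solvable over `G`. -/
def Solvable' {G : Type u} [Group G] {m n : ℕ}
    (w : Fin m → Monoid.Coprod G (FreeGroup (Fin n))) : Prop :=
  ∃ (H : Type u) (_ : Group H) (ι : G →* H) (h : Fin n → H),
    Function.Injective ι ∧ ∀ i, Monoid.Coprod.lift ι (FreeGroup.lift h) (w i) = 1

/-- Every nonsingular finite system over `G` is solvable over `G`. -/
def Howie (G : Type u) [Group G] : Prop :=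
  ∀ (m n : ℕ) (w : Fin m → Monoid.Coprod G (FreeGroup (Fin n))), Nonsingular w → Solvable' w

end Vale.Agent.P174
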