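import Vale.Agent.P174.Main
import Vale.Agent.P174.GR.Fixed

/-!
P174: hyperlinear groups satisfy Howie's conjecture.
-/

noncomputable section

namespace Vale.Agent.P174

open GR Filter Topology
open scoped Matrix.Norms.L2Operator

universe u

/-- The group `U(k)`. -/
abbrev UMat (k : ℕ) := unitary (Matrix (Fin k) (Fin k) ℂ)

/-- The squared normalized Hilbert–Schmidt distance. -/
def hsDistSq {k : ℕ} (A B : Matrix (Fin k) (Fin k) ℂ) : ℝ :=
  (∑ a, ∑ b, ‖A a b - B a b‖ ^ 2) / k

theorem hsDistSq_nonneg {k : ℕ} (A B : Matrix (Fin k) (Fin k) ℂ) : 0 ≤ hsDistSq A B := by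
  unfold hsDistSq; positivity

theorem hsDistSq_eq_trace {k : ℕ} (A B : Matrix (Fin k) (Fin k) ℂ) :
    hsDistSq A B = (Matrix.trace (star (A - B) * (A - B))).re / k := by
  unfold hsDistSq
  congr 1
  simp only [Matrix.trace, Matrix.diag, Matrix.mul_apply, Complex.re_sum]
  rw [Finset.sum_comm]
  refine Finset.sum_congr rfl fun a _ => Finset.sum_congr rfl fun b _ => ?_
  simp [← Complex.normSq_eq_norm_sq, Complex.normSq_apply]
  ring

theorem hsDistSq_mul_right {k : ℕ} (A B : Matrix (Fin k) (Fin k) ℂ) (v : UMat k) :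
    hsDistSq (A * (v : Matrix (Fin k) (Fin k) ℂ)) (B * (v : Matrix (Fin k) (Fin k) ℂ)) = hsDistSq A B := by
  rw [hsDistSq_eq_trace, hsDistSq_eq_trace, ← sub_mul, star_mul, mul_assoc, Matrix.trace_mul_comm]
  congr 3
  calc star (A - B) * ((A - B) * (v : Matrix (Fin k) (Fin k) ℂ)) * star (v : Matrix (Fin k) (Fin k) ℂ)
      = star (A - B) * (A - B) * ((v : Matrix (Fin k) (Fin k) ℂ) * star (v : Matrix (Fin k) (Fin k) ℂ)) := by simp only [mul_assoc]
    _ = _ := by rw [(Unitary.mem_iff.1 v.2).2, mul_one]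

theorem hsDistSq_mul_left {k : ℕ} (A B : Matrix (Fin k) (Fin k) ℂ) (v : UMat k) :
    hsDistSq ((v : Matrix (Fin k) (Fin k) ℂ) * A) ((v : Matrix (Fin k) (Fin k) ℂ) * B) = hsDistSq A B := by
  rw [hsDistSq_eq_trace, hsDistSq_eq_trace, ← mul_sub, star_mul]
  congr 3
  calc star (A - B) * star (v : Matrix (Fin k) (Fin k) ℂ) * ((v : Matrix (Fin k) (Fin k) ℂ) * (A - B))
      = star (A - B) * (star (v : Matrix (Fin k) (Fin k) ℂ) * (v : Matrix (Fin k) (Fin k) ℂ)) * (A - B) := by simp only [mul_assoc]
    _ = _ := by rw [(Unitary.mem_iff.1 v.2).1, mul_one]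

theorem hsDistSq_triangle {k : ℕ} (A B C : Matrix (Fin k) (Fin k) ℂ) :
    hsDistSq A C ≤ 2 * hsDistSq A B + 2 * hsDistSq B C := by
  unfold hsDistSq
  rw [← mul_div_assoc, ← mul_div_assoc, ← add_div]
  refine div_le_div_of_nonneg_right ?_ (Nat.cast_nonneg k)
  simp only [Finset.mul_sum, ← Finset.sum_add_distrib]
  refine Finset.sum_le_sum fun a _ => Finset.sum_le_sum fun b _ => ?_
  have h := norm_sub_le_norm_sub_add_norm_sub (A a b) (B a b) (C a b)
  nlinarith [norm_nonneg (A a b - C a b), sq_nonneg (‖A a b - B a b‖ - ‖B a b - C a b‖)]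

theorem hsDistSq_comm {k : ℕ} (A B : Matrix (Fin k) (Fin k) ℂ) : hsDistSq A B = hsDistSq B A := by
  simp [hsDistSq, norm_sub_rev]

/-- The sequences of unitaries at distance `0` from `1` along an ultrafilter. -/
def nullSubgroup {ι : Type u} (U : Ultrafilter ι) (k : ι → ℕ) : Subgroup (∀ i, UMat (k i)) where
  carrier := {x | Tendsto (fun i => hsDistSq (x i : Matrix (Fin (k i)) (Fin (k i)) ℂ) 1) (U : Filter ι) (𝓝 0)}
  one_mem' := by
    show Tendsto _ _ _
    simp [hsDistSq]
  mul_mem' {x y} hx hy := by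
    show Tendsto _ _ _
    refine squeeze_zero (fun i => hsDistSq_nonneg _ _) (fun i => ?_)
      (by simpa using (hx.const_mul 2).add (hy.const_mul 2))
    have h := hsDistSq_triangle ((x i : Matrix (Fin (k i)) (Fin (k i)) ℂ) * (y i : Matrix (Fin (k i)) (Fin (k i)) ℂ))
      (1 * (y i : Matrix (Fin (k i)) (Fin (k i)) ℂ)) 1
    rw [hsDistSq_mul_right, one_mul] at h
    exact h
  inv_mem' {x} hx := by
    show Tendsto _ _ _
    refine hx.congr fun i => ?_
    rw [Pi.inv_apply, hsDistSq_comm _ 1]
    conv_rhs => rw [← hsDistSq_mul_left _ _ (x i), mul_one, hsDistSq_comm]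
    rw [← Submonoid.coe_mul, mul_inv_cancel, OneMemClass.coe_one]
    exact hsDistSq_comm _ _

instance {ι : Type u} (U : Ultrafilter ι) (k : ι → ℕ) : (nullSubgroup U k).Normal where
  conj_mem x hx y := by
    show Tendsto _ _ _
    refine Tendsto.congr (fun i => ?_) hx
    simp only [Pi.mul_apply, Pi.inv_apply, Submonoid.coe_mul]
    conv_lhs => rw [← hsDistSq_mul_left _ _ (y i), ← hsDistSq_mul_right _ _ (y i)⁻¹, mul_one,
      ← Submonoid.coe_mul (unitary _) (y i) (y i)⁻¹, mul_inv_cancel, OneMemClass.coe_one]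

/-- The metric ultraproduct of unitary groups. -/
abbrev UnitaryUltraproduct {ι : Type u} (U : Ultrafilter ι) (k : ι → ℕ) :=
  (∀ i, UMat (k i)) ⧸ nullSubgroup U k

/-- `G` embeds into a metric ultraproduct of unitary groups. -/
def Hyperlinear (G : Type u) [Group G] : Prop :=
  ∃ (ι : Type u) (U : Ultrafilter ι) (k : ι → ℕ) (f : G →* UnitaryUltraproduct U k),
    Function.Injective f

/-- A nonsingular system over `U(k)` has a root in `U(k)`. -/
theorem exists_root_of_indep {P : Type u} {m n k : ℕ} (L : Fin m → Word P n)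
    (hL : LinearIndependent ℚ fun i => fun j => (wexp j (L i) : ℚ)) (c : P → UMat k) :
    ∃ X : Fin n → UMat k, ∀ i,
      val (fun a => (c a : Mat k)) (fun j => (X j : Mat k)) (L i) = 1 := by
  classical
  set a : Fin m → (Fin n → ℚ) := fun i j => (wexp j (L i) : ℚ)
  let std : Fin n → (Fin n → ℚ) := fun j => Pi.single j 1
  have hs : LinearIndepOn ℚ id (Set.range a) := hL.linearIndepOn_id
  obtain ⟨b, hbsub, hab, hspan, hb⟩ := exists_linearIndepOn_id_extension hs
    (t := Set.range a ∪ Set.range std) Set.subset_union_left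
  have htop : Submodule.span ℚ b = ⊤ := by
    refine top_le_iff.1 ?_
    rw [← (Pi.basisFun ℚ (Fin n)).span_eq, Submodule.span_le]
    rintro _ ⟨j, rfl⟩
    exact hspan (Or.inr ⟨j, by simp [std]⟩)
  let B : Module.Basis b ℚ (Fin n → ℚ) := Module.Basis.mk hb (by simp [htop])
  let e : Fin n ≃ b := (Pi.basisFun ℚ (Fin n)).indexEquiv B
  have hrow : ∀ l, ∃ W : Word P n, (fun j => (wexp j W : ℚ)) = (e l : Fin n → ℚ) := by
    intro l
    rcases hbsub (e l).2 with ⟨i, hi⟩ | ⟨j, hj⟩
    · exact ⟨L i, hi⟩
    · refine ⟨[(Sum.inr j, true)], ?_⟩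
      rw [← hj]
      funext j'
      by_cases h : j = j' <;> simp [wexp, lexp, std, h, Ne.symm]
  choose W hW using hrow
  let W' : Fin n → Word P n := fun l =>
    if h : ∃ i, a i = (e l : Fin n → ℚ) then L h.choose else W l
  have hW' : ∀ l, (fun j => (wexp j (W' l) : ℚ)) = (e l : Fin n → ℚ) := by
    intro l
    by_cases h : ∃ i, a i = (e l : Fin n → ℚ)
    · simp only [W', dif_pos h]; exact h.choose_spec
    · simp only [W', dif_neg h]; exact hW l
  have hdet : (Matrix.of fun i j => wexp j (W' i)).det ≠ 0 := by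
    have h1 : LinearIndependent ℚ (fun l => (Matrix.of fun i j => (wexp j (W' i) : ℚ)).row l) := by
      have : (fun l => (Matrix.of fun i j => (wexp j (W' i) : ℚ)).row l) = Subtype.val ∘ e :=
        funext hW'
      rw [this]
      exact hb.linearIndependent.comp e e.injective
    have h2 := (Matrix.linearIndependent_rows_iff_isUnit.1 h1).map (Matrix.detMonoidHom)
    intro h0
    have h3 := (Int.castRingHom ℚ).map_det (Matrix.of fun i j => wexp j (W' i))
    rw [h0, map_zero] at h3
    exact h2.ne_zero h3.symm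
  obtain ⟨X, hX, hval⟩ := exists_unitary_root (k := k) W' hdet (g := fun p => (c p : Mat k))
    fun p => (c p).2
  refine ⟨fun j => ⟨X j, hX j⟩, fun i => ?_⟩
  have hmem : a i ∈ b := hab ⟨i, rfl⟩
  set l := e.symm ⟨a i, hmem⟩ with hl
  have hel : (e l : Fin n → ℚ) = a i := by simp [hl]
  have h : ∃ i', a i' = (e l : Fin n → ℚ) := ⟨i, hel.symm⟩
  have hc : h.choose = i := hL.injective (h.choose_spec.trans hel)
  have hW'' := hval l
  simp only [W', dif_pos h, hc] at hW''
  exact hW''

/-- The word of a list. -/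
theorem coe_lift_mk {P : Type u} {n k : ℕ} (c : P → UMat k) (X : Fin n → UMat k) (L : Word P n) :
    ((FreeGroup.lift (Sum.elim c X) (FreeGroup.mk L) : UMat k) : Mat k) =
      val (fun a => (c a : Mat k)) (fun j => (X j : Mat k)) L := by
  induction L with
  | nil =>
    show ((FreeGroup.lift (Sum.elim c X) 1 : UMat k) : Mat k) = 1
    simp
  | cons a L ih =>
    rw [show FreeGroup.mk (a :: L) = FreeGroup.mk [a] * FreeGroup.mk L by rw [FreeGroup.mul_mk]; rfl,
      map_mul, Submonoid.coe_mul, ih, val_cons]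
    congr 1
    obtain ⟨p | j, b⟩ := a <;> cases b <;> simp [FreeGroup.lift_mk, letter]

/-- **Hyperlinear groups satisfy Howie's conjecture.** -/
theorem howie_of_hyperlinear {G : Type u} [Group G] (hG : Hyperlinear G) : Howie G := by
  classical
  obtain ⟨ι, U, k, f, hf⟩ := hG
  intro m n w hw
  let π : FreeGroup (G ⊕ Fin n) →* Monoid.Coprod G (FreeGroup (Fin n)) :=
    FreeGroup.lift (Sum.elim (fun a => Monoid.Coprod.inl a)
      (fun x => Monoid.Coprod.inr (FreeGroup.of x)))
  have hsurj : ∀ z, ∃ L, π (FreeGroup.mk L) = z := by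
    intro z
    suffices z ∈ π.range by
      obtain ⟨y, rfl⟩ := this
      exact ⟨y.toWord, by rw [FreeGroup.mk_toWord]⟩
    induction z using Monoid.Coprod.induction_on with
    | inl a => exact ⟨FreeGroup.of (Sum.inl a), by simp [π]⟩
    | inr y =>
      induction y using FreeGroup.induction_on with
      | C1 => simp
      | of j => exact ⟨FreeGroup.of (Sum.inr j), by simp [π]⟩
      | inv_of j h => rw [map_inv]; exact π.range.inv_mem h
      | mul a b ha hb => rw [map_mul]; exact π.range.mul_mem ha hb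
    | mul a b ha hb => exact π.range.mul_mem ha hb
  choose Lw hLw using fun i => hsurj (w i)
  have hexp : ∀ (L : Word G n) j,
      Multiplicative.toAdd (expSum G n (π (FreeGroup.mk L))) j = wexp j L := by
    intro L j
    induction L with
    | nil => simp [π, wexp, FreeGroup.lift_mk]
    | cons a L ih =>
      rw [show FreeGroup.mk (a :: L) = FreeGroup.mk [a] * FreeGroup.mk L by rw [FreeGroup.mul_mk]; rfl,
        map_mul, map_mul, toAdd_mul, Pi.add_apply, ih]
      simp only [wexp, List.map_cons, List.sum_cons]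
      congr 1
      obtain ⟨c | x, b⟩ := a
      · cases b <;> simp [π, FreeGroup.lift_mk, lexp, expSum]
      · by_cases hj : x = j
        · subst hj; cases b <;> simp [π, FreeGroup.lift_mk, lexp, expSum]
        · cases b <;> simp [π, FreeGroup.lift_mk, lexp, expSum, hj]
  have hind : LinearIndependent ℚ fun i => fun j => (wexp j (Lw i) : ℚ) := by
    simp only [← hexp, hLw]
    exact hw
  let φ : G → ∀ i, UMat (k i) := fun x => Quotient.out (f x)
  have hφ : ∀ x, QuotientGroup.mk' (nullSubgroup U k) (φ x) = f x := fun x => Quotient.out_eq _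
  choose X hX using fun i => exists_root_of_indep (k := k i) Lw hind fun x => φ x i
  refine ⟨UnitaryUltraproduct U k, inferInstance, f,
    fun j => QuotientGroup.mk' (nullSubgroup U k) fun i => X i j, hf, fun l => ?_⟩
  let E : FreeGroup (G ⊕ Fin n) →* ∀ i, UMat (k i) :=
    MonoidHom.pi fun i => FreeGroup.lift (Sum.elim (fun x => φ x i) (X i))
  have hcomp : (Monoid.Coprod.lift f (FreeGroup.lift fun j =>
      QuotientGroup.mk' (nullSubgroup U k) fun i => X i j)).comp π =
        (QuotientGroup.mk' (nullSubgroup U k)).comp E := by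
    refine FreeGroup.ext_hom _ _ fun x => ?_
    rcases x with x | x
    · have hE : E (FreeGroup.of (Sum.inl x)) = φ x := funext fun i => by simp [E]
      rw [MonoidHom.comp_apply, MonoidHom.comp_apply, hE, hφ]
      simp [π]
    · have hE : E (FreeGroup.of (Sum.inr x)) = fun i => X i x := funext fun i => by simp [E]
      rw [MonoidHom.comp_apply, MonoidHom.comp_apply, hE]
      simp [π]
  have hone : E (FreeGroup.mk (Lw l)) = 1 := funext fun i =>
    Subtype.ext ((coe_lift_mk (fun x => φ x i) (X i) (Lw l)).trans (hX i l))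
  rw [← hLw l, ← MonoidHom.comp_apply, hcomp, MonoidHom.comp_apply, hone, map_one]

/-- The permutation matrices of the regular representation. -/
def regMat {G : Type u} [Group G] [Fintype G] [DecidableEq G] (g : G) :
    Matrix (Fin (Fintype.card G)) (Fin (Fintype.card G)) ℂ :=
  Matrix.of fun a b => if (Fintype.equivFin G).symm a = g * (Fintype.equivFin G).symm b then 1 else 0

/-- Finite groups are hyperlinear. -/
theorem hyperlinear_of_finite (G : Type u) [Group G] [Finite G] : Hyperlinear G := by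
  classical
  have := Fintype.ofFinite G
  set e := (Fintype.equivFin G).symm
  have hmul : ∀ g h : G, regMat g * regMat h = regMat (g * h) := by
    intro g h
    ext a c
    simp only [Matrix.mul_apply, regMat, Matrix.of_apply, ite_mul, one_mul, zero_mul]
    rw [Finset.sum_eq_single (e.symm (g⁻¹ * e a))]
    · simp [e, inv_mul_eq_iff_eq_mul, mul_assoc]
    · intro b _ hb
      rw [if_neg]
      intro hab
      exact hb (e.injective (by rw [Equiv.apply_symm_apply, hab, inv_mul_cancel_left]))
    · simp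
  have hone : regMat (1 : G) = 1 := by
    ext a b; simp [regMat, Matrix.one_apply]
  have hstar : ∀ g : G, star (regMat g) = regMat g⁻¹ := by
    intro g
    ext a b
    simp only [Matrix.star_apply, regMat, Matrix.of_apply, eq_inv_mul_iff_mul_eq]
    split <;> rename_i h <;> simp [h, eq_comm]
  have hu : ∀ g : G, regMat g ∈ unitary (Matrix (Fin (Fintype.card G)) (Fin (Fintype.card G)) ℂ) := by
    intro g
    rw [Unitary.mem_iff, hstar, hmul, hmul]
    simp [hone]
  let ρ : G →* UMat (Fintype.card G) :=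
    MonoidHom.mk' (fun g => ⟨regMat g, hu g⟩) fun g h => Subtype.ext (hmul g h).symm
  let Δ : G →* (PUnit.{u + 1} → UMat (Fintype.card G)) := MonoidHom.pi fun _ => ρ
  refine ⟨PUnit.{u + 1}, pure PUnit.unit, fun _ => Fintype.card G,
    (QuotientGroup.mk' _).comp Δ, (injective_iff_map_eq_one _).2 fun g hg => ?_⟩
  have hmem : Tendsto (fun _ : PUnit.{u + 1} => hsDistSq (regMat g) 1)
      ((pure PUnit.unit : Ultrafilter PUnit.{u + 1}) : Filter PUnit.{u + 1}) (𝓝 0) :=
    (QuotientGroup.eq_one_iff (Δ g)).1 hg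
  have h0 : hsDistSq (regMat g) 1 = 0 := tendsto_nhds_unique tendsto_const_nhds hmem
  unfold hsDistSq at h0
  rcases div_eq_zero_iff.1 h0 with h1 | h1
  · have h2 := (Finset.sum_eq_zero_iff_of_nonneg fun a _ => Finset.sum_nonneg fun b _ => sq_nonneg _).1 h1
      ((Fintype.equivFin G) g) (Finset.mem_univ _)
    have h3 := (Finset.sum_eq_zero_iff_of_nonneg fun b _ => sq_nonneg _).1 h2
      ((Fintype.equivFin G) 1) (Finset.mem_univ _)
    by_contra hne
    simp [regMat, hne] at h3
  · exact absurd h1 (by simp)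

end Vale.Agent.P174
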