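import Vale.Agent.P174.Step

/-!
Lifting a stage along a weight, and the induction.
-/

namespace Vale.Agent.P174

universe u

variable {G : Type u} [Group G]

theorem ev_lift {A : Type} [AddCommGroup A] {C X : Type u} (val : C → G) (ψ : C ⊕ X → A) (p : A)
    (L : List ((C ⊕ X) × Bool)) :
    ev (fun c : C × A => val c.1) (lift ψ p L) = ev val L := by
  induction L generalizing p with
  | nil => simp [lift, ev_nil]
  | cons a L ih =>
    obtain ⟨γ, b⟩ := a
    cases b <;> cases γ <;> simp [lift, up, ev_cons, ih]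

theorem coefOnly_lift {A : Type} [AddCommGroup A] {C X : Type u} (ψ : C ⊕ X → A) (p : A) (L : List ((C ⊕ X) × Bool))
    (h : CoefOnly L) : CoefOnly (lift ψ p L) := by
  intro a ha
  have h1 : down a ∈ L := by
    rw [← map_down_lift ψ p L]; exact List.mem_map_of_mem ha
  obtain ⟨c, hc⟩ := h _ h1
  obtain ⟨γ, b⟩ := a
  cases γ with
  | inl d => exact ⟨d, rfl⟩
  | inr y => simp [down] at hc

theorem wt_block {A : Type} [AddCommGroup A] {C X J : Type u} (ψ : C ⊕ X → A) (core : J → List ((C ⊕ X) × Bool))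
    (it : List ((C ⊕ X) × Bool) × J × Bool) (h : wt ψ (core it.2.1) = 0) :
    wt ψ (block core it) = 0 := by
  obtain ⟨cj, j, σ⟩ := it
  simp only at h
  cases σ <;> simp [block, wt_append, wt_invRev, h]

/-- Number of distinct entries of a list. -/
noncomputable def dcard {α : Type u} (l : List α) : ℕ := by classical exact l.toFinset.card

theorem dcard_eq {α : Type u} [DecidableEq α] (l : List α) : dcard l = l.toFinset.card := by
  simp only [dcard]
  congr 1
  ext a
  simp

theorem dcard_le {α : Type u} (l : List α) : dcard l ≤ l.length := by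
  classical exact (dcard_eq l).trans_le (List.toFinset_card_le _)

namespace Stage

variable (S : Stage G)

/-- Lifted core words. -/
def coreUp (ψ : S.C ⊕ S.X → ℤ) :
    (S.I × ℤ) ⊕ (S.R × ℤ) → List (((S.C × ℤ) ⊕ (S.X × ℤ)) × Bool) :=
  Sum.elim (fun ip => lift ψ ip.2 (S.core (Sum.inl ip.1)))
    (fun rp => lift ψ rp.2 (S.core (Sum.inr rp.1)))

/-- Lifted base vertices. -/
def baseUp : (S.I × ℤ) ⊕ (S.R × ℤ) → S.V × ℤ :=
  Sum.elim (fun ip => (S.base (Sum.inl ip.1), ip.2)) (fun rp => (S.base (Sum.inr rp.1), rp.2))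

theorem coreUp_up (ψ : S.C ⊕ S.X → ℤ) (j : S.I ⊕ S.R) (p : ℤ) :
    S.coreUp ψ (up j p) = lift ψ p (S.core j) := by cases j <;> rfl

theorem baseUp_up (j : S.I ⊕ S.R) (p : ℤ) : S.baseUp (up j p) = (S.base j, p) := by
  cases j <;> rfl

/-- A lifted item. -/
def itemUp (ψ : S.C ⊕ S.X → ℤ) (it : List ((S.C ⊕ S.X) × Bool) × (S.I ⊕ S.R) × Bool) :
    List (((S.C × ℤ) ⊕ (S.X × ℤ)) × Bool) × ((S.I × ℤ) ⊕ (S.R × ℤ)) × Bool :=
  (lift ψ 0 it.1, up it.2.1 (wt ψ it.1), it.2.2)

theorem block_up (ψ : S.C ⊕ S.X → ℤ) (it : List ((S.C ⊕ S.X) × Bool) × (S.I ⊕ S.R) × Bool)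
    (h : wt ψ (S.core it.2.1) = 0) :
    block (S.coreUp ψ) (S.itemUp ψ it) = lift ψ 0 (block S.core it) := by
  obtain ⟨cj, j, σ⟩ := it
  simp only at h
  have h1 := lift_invRev ψ 0 cj
  rw [zero_add] at h1
  have h2 := lift_invRev ψ (wt ψ cj) (S.core j)
  rw [h, add_zero] at h2
  cases σ
  · simp [block, itemUp, coreUp_up, lift_append, wt_invRev, h, h1, h2]
  · simp [block, itemUp, coreUp_up, lift_append, h, h1]

theorem flat_up (ψ : S.C ⊕ S.X → ℤ)
    (l : List (List ((S.C ⊕ S.X) × Bool) × (S.I ⊕ S.R) × Bool))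
    (h : ∀ it ∈ l, wt ψ (S.core it.2.1) = 0) :
    wt ψ (l.flatMap (block S.core)) = 0 ∧
      (l.map (S.itemUp ψ)).flatMap (block (S.coreUp ψ)) = lift ψ 0 (l.flatMap (block S.core)) := by
  induction l with
  | nil => exact ⟨rfl, rfl⟩
  | cons it l ih =>
    obtain ⟨h1, h2⟩ := ih fun a ha => h a (List.mem_cons_of_mem _ ha)
    have h3 := h it (List.mem_cons_self ..)
    have h4 := wt_block ψ S.core it h3
    refine ⟨by rw [List.flatMap_cons, wt_append, h4, h1, add_zero], ?_⟩
    rw [List.map_cons, List.flatMap_cons, List.flatMap_cons, h2, lift_append, h4, add_zero,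
      S.block_up ψ it h3]

theorem wt_lhs (ψ : S.C ⊕ S.X → ℤ) (h : ∀ it ∈ S.items, wt ψ (S.core it.2.1) = 0) :
    wt ψ S.lhs = 0 := by
  rw [(lift_eq_of_mk_eq ψ _ _ S.ident).1, (S.flat_up ψ S.items h).1]

/-- The lifted stage. -/
noncomputable def liftStage (ψ : S.C ⊕ S.X → ℤ) (h : ∀ it ∈ S.items, wt ψ (S.core it.2.1) = 0) :
    Stage G where
  V := S.V × ℤ
  C := S.C × ℤ
  X := S.X × ℤ
  I := S.I × ℤ
  R := S.R × ℤ
  s := sUp S.s
  t := tUp S.t ψ
  val c := S.val c.1
  core := S.coreUp ψ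
  base := S.baseUp
  o := (S.o, 0)
  lhs := lift ψ 0 S.lhs
  items := S.items.map (S.itemUp ψ)
  indep := linearIndependent_expo_lift ψ (fun i => S.core (Sum.inl i)) S.indep
  path_lhs := by
    have h1 := isPath_lift S.s S.t ψ S.o S.o 0 S.lhs S.path_lhs
    rwa [S.wt_lhs ψ h, add_zero] at h1
  coef_lhs := coefOnly_lift ψ 0 _ S.coef_lhs
  ev_lhs := by rw [ev_lift]; exact S.ev_lhs
  path_conj := by
    intro it' hit'
    obtain ⟨it, hit, rfl⟩ := List.mem_map.1 hit'
    have h1 := isPath_lift S.s S.t ψ _ _ 0 it.1 (S.path_conj it hit)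
    rw [zero_add] at h1
    simpa [itemUp, baseUp_up] using h1
  path_core := by
    intro it' hit'
    obtain ⟨it, hit, rfl⟩ := List.mem_map.1 hit'
    have h1 := isPath_lift S.s S.t ψ _ _ (wt ψ it.1) _ (S.path_core it hit)
    rw [h it hit, add_zero] at h1
    simpa [itemUp, baseUp_up, coreUp_up] using h1
  rel := by
    intro it' hit' r hr
    obtain ⟨it, hit, rfl⟩ := List.mem_map.1 hit'
    rcases hj : it.2.1 with i | r0
    · simp [itemUp, hj, up] at hr
    · obtain ⟨h1, h2⟩ := S.rel it hit r0 hj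
      simp only [itemUp, coreUp_up]
      exact ⟨coefOnly_lift ψ _ _ h1, by rw [ev_lift, h2]⟩
  ident := by
    rw [(lift_eq_of_mk_eq ψ _ _ S.ident).2 0, (S.flat_up ψ S.items h).2]

theorem positions_up (ψ : S.C ⊕ S.X → ℤ) (h : ∀ it ∈ S.items, wt ψ (S.core it.2.1) = 0) :
    (S.liftStage ψ h).positions.map Prod.fst = S.positions := by
  show List.map (Prod.fst : S.V × ℤ → S.V)
    (visits (sUp S.s) (tUp S.t ψ) (S.o, 0) (lift ψ 0 S.lhs) ++ (S.items.map (S.itemUp ψ)).flatMap
      (fun it => visits (sUp S.s) (tUp S.t ψ) (S.o, 0) it.1 ++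
        visits (sUp S.s) (tUp S.t ψ) (S.baseUp it.2.1) (S.coreUp ψ it.2.1))) = _
  simp only [positions, List.map_append, visits_lift, List.map_flatMap,
    List.flatMap_map, itemUp, baseUp_up, coreUp_up]

theorem exists_up (ψ : S.C ⊕ S.X → ℤ) (h : ∀ it ∈ S.items, wt ψ (S.core it.2.1) = 0) (c : S.C)
    (hc : c ∈ S.usedC) : ∃ p, (c, p) ∈ (S.liftStage ψ h).usedC := by
  have h0 : (S.liftStage ψ h).letters.map down = S.letters := by
    show List.map (down : ((S.C × ℤ) ⊕ (S.X × ℤ)) × Bool → (S.C ⊕ S.X) × Bool)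
      (lift ψ 0 S.lhs ++ (S.items.map (S.itemUp ψ)).flatMap
        (fun it => it.1 ++ S.coreUp ψ it.2.1)) = _
    simp only [letters, List.map_append, map_down_lift, List.map_flatMap,
      List.flatMap_map, itemUp, coreUp_up]
  obtain ⟨a, ha, hac⟩ := List.mem_filterMap.1 hc
  rw [← h0] at ha
  obtain ⟨a', ha', rfl⟩ := List.mem_map.1 ha
  obtain ⟨γ, b⟩ := a'
  rcases γ with ⟨c', p⟩ | y
  · have h1 : c' = c := by simpa [down] using hac
    subst h1
    exact ⟨p, (S.liftStage ψ h).mem_usedC (c', p) b ha'⟩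
  · simp [down] at hac

/-- Number of distinct visited vertices. -/
noncomputable def vcard : ℕ := dcard S.positions

theorem vcard_le : S.vcard ≤ S.positions.length := dcard_le _

theorem exists_weight (D0 : S.C → ℤ) :
    ∃ (D : ℕ) (ψ : S.C ⊕ S.X → ℤ), 0 < D ∧ (∀ c, ψ (Sum.inl c) = D * D0 c) ∧
      ∀ i ∈ S.usedI, wt ψ (S.core (Sum.inl i)) = 0 := by
  classical
  let ψ0 : S.C ⊕ S.X → ℤ := Sum.elim D0 (fun _ => 0)
  let v : S.usedI → (S.X →₀ ℚ) := fun i => expo (S.core (Sum.inl i.1))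
  have hv : LinearIndependent ℚ v := S.indep.comp Subtype.val Subtype.val_injective
  obtain ⟨F, hF⟩ := LinearMap.exists_extend
    ((Finsupp.linearCombination ℚ
      (fun i : S.usedI => -((wt ψ0 (S.core (Sum.inl i.1)) : ℤ) : ℚ))).comp hv.repr)
  have hFv : ∀ i : S.usedI, F (v i) = -((wt ψ0 (S.core (Sum.inl i.1)) : ℤ) : ℚ) := by
    intro i
    have h1 := congrArg (fun g => g ⟨v i, Submodule.subset_span (Set.mem_range_self i)⟩) hF
    simp only [LinearMap.comp_apply, Submodule.coe_subtype] at h1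
    rw [hv.repr_eq_single i ⟨v i, Submodule.subset_span (Set.mem_range_self i)⟩ rfl,
      Finsupp.linearCombination_single, one_smul] at h1
    exact h1
  let q : S.X → ℚ := fun x => F (Finsupp.single x 1)
  let D : ℕ := ∏ x ∈ S.usedX, (q x).den
  let ψ : S.C ⊕ S.X → ℤ := Sum.elim (fun c => (D : ℤ) * D0 c)
    (fun x => if x ∈ S.usedX then (q x).num * ((D / (q x).den : ℕ) : ℤ) else 0)
  refine ⟨D, ψ, Finset.prod_pos fun x _ => (q x).den_pos, fun c => rfl, ?_⟩
  have hq : ∀ x ∈ S.usedX, ((ψ (Sum.inr x) : ℤ) : ℚ) = (D : ℚ) * q x := by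
    intro x hx
    have hd : (q x).den ∣ D := Finset.dvd_prod_of_mem _ hx
    have hne : ((q x).den : ℚ) ≠ 0 := Nat.cast_ne_zero.2 (q x).den_nz
    simp only [ψ, Sum.elim_inr, if_pos hx, Int.cast_mul, Int.cast_natCast, Nat.cast_div hd hne]
    conv_rhs => rw [← Rat.num_div_den (q x)]
    field_simp
  have hlin : ∀ L : List ((S.C ⊕ S.X) × Bool), (∀ a ∈ L, a ∈ S.letters) →
      ((wt ψ L : ℤ) : ℚ) = (D : ℚ) * (((wt ψ0 L : ℤ) : ℚ) + F (expo L)) := by
    intro L hL
    induction L with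
    | nil => simp [wt_nil, expo_nil]
    | cons a L ih =>
      rw [wt_cons, wt_cons, expo_cons, map_add, Int.cast_add, Int.cast_add,
        ih (fun b hb => hL b (List.mem_cons_of_mem _ hb))]
      have hal := hL a (List.mem_cons_self ..)
      obtain ⟨c | x, b⟩ := a
      · cases b <;> simp [lwt, lex, ψ, ψ0] <;> ring
      · have hx := hq x (S.mem_usedX x b hal)
        have hneg : F (Finsupp.single x (-1)) = -q x := by rw [Finsupp.single_neg, map_neg]
        cases b <;> simp [lwt, lex, ψ0, hx, hneg, q] <;> ring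
  intro i hi
  obtain ⟨it, hit, hiti⟩ := S.exists_item i hi
  have h1 := hlin (S.core (Sum.inl i)) (fun a ha => S.conj_sub it hit a (Or.inr (hiti ▸ ha)))
  have h2 := hFv ⟨i, hi⟩
  simp only [v] at h2
  rw [h2, add_neg_cancel, mul_zero] at h1
  exact_mod_cast h1

theorem exists_refinement (φ : S.usedGroup →* Multiplicative ℤ) (hφ : φ ≠ 1)
    (hforest : ∀ c ∈ S.usedC, Relation.EqvGen
      (fun v w => ∃ d ∈ S.usedC, S.val d = 1 ∧ S.s (Sum.inl d) = v ∧ S.t (Sum.inl d) = w)
      (S.s (Sum.inl c)) (S.t (Sum.inl c))) :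
    ∃ S' : Stage G, S'.positions.length = S.positions.length ∧ S.vcard < S'.vcard := by
  classical
  let f : G → ℤ := fun g =>
    if hg : g ∈ S.usedGroup then Multiplicative.toAdd (φ ⟨g, hg⟩) else 0
  have hf : ∀ g : S.usedGroup, f g = Multiplicative.toAdd (φ g) := fun g => by
    simp [f, g.2]
  obtain ⟨D, ψ, hD, hψc, hψi⟩ := S.exists_weight (fun c => f (S.val c))
  have hcoef : ∀ L : List ((S.C ⊕ S.X) × Bool), (∀ a ∈ L, a ∈ S.letters) → CoefOnly L →
      ∃ g : S.usedGroup, (g : G) = ev S.val L ∧ wt ψ L = D * Multiplicative.toAdd (φ g) := by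
    intro L hL hc
    induction L with
    | nil => exact ⟨1, by simp [ev_nil], by simp [wt_nil]⟩
    | cons a L ih =>
      obtain ⟨g, hg1, hg2⟩ := ih (fun b hb => hL b (List.mem_cons_of_mem _ hb))
        (fun b hb => hc b (List.mem_cons_of_mem _ hb))
      obtain ⟨c, b, rfl, hcu⟩ := S.coef_used _ hL hc a (List.mem_cons_self ..)
      have hm := S.val_mem c hcu
      refine ⟨(if b then ⟨S.val c, hm⟩ else (⟨S.val c, hm⟩ : S.usedGroup)⁻¹) * g, ?_, ?_⟩
      · rw [ev_cons]; cases b <;> simp [hg1]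
      · have h1 := hf ⟨S.val c, hm⟩
        simp only at h1
        rw [wt_cons, hg2]
        cases b <;> simp [lwt, hψc, h1, mul_add]
  have hcore : ∀ it ∈ S.items, wt ψ (S.core it.2.1) = 0 := by
    intro it hit
    rcases hj : it.2.1 with i | r
    · exact hψi i (S.mem_usedI it hit i hj)
    · obtain ⟨h1, h2⟩ := S.rel it hit r hj
      obtain ⟨g, hg1, hg2⟩ := hcoef _ (fun a ha => S.conj_sub it hit a (Or.inr ha)) h1
      rw [← hj, hg2, show g = 1 from Subtype.ext (hg1.trans h2)]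
      simp
  let S' := S.liftStage ψ hcore
  let P : List (S.V × ℤ) := S'.positions
  have hmap : P.map Prod.fst = S.positions := S.positions_up ψ hcore
  have himg : P.toFinset.image Prod.fst = S.positions.toFinset := by
    rw [← hmap]
    ext x
    simp
  refine ⟨S', ?_, ?_⟩
  · show P.length = _
    rw [← hmap, List.length_map]
  have hvc : S'.vcard = P.toFinset.card := dcard_eq (α := S.V × ℤ) P
  have hsc : S.vcard = S.positions.toFinset.card := dcard_eq S.positions
  have hle : S.vcard ≤ S'.vcard := by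
    rw [hvc, hsc, ← himg]; exact Finset.card_image_le
  refine lt_of_le_of_ne hle fun heq => hφ ?_
  have hinj : Set.InjOn Prod.fst (P.toFinset : Set (S.V × ℤ)) := by
    refine Finset.card_image_iff.1 ?_
    rw [himg, ← hvc, ← hsc]
    exact heq
  let hgt : S.V → ℤ := fun v => if hv : ∃ p, (v, p) ∈ P then hv.choose else 0
  have hspec : ∀ v p, (v, p) ∈ P → hgt v = p := by
    intro v p hp
    have hv : ∃ p, (v, p) ∈ P := ⟨p, hp⟩
    have h1 := hinj (List.mem_toFinset.2 hv.choose_spec) (List.mem_toFinset.2 hp) rfl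
    simp only [hgt, dif_pos hv]
    exact congrArg Prod.snd h1
  have hedge : ∀ c ∈ S.usedC, hgt (S.t (Sum.inl c)) = hgt (S.s (Sum.inl c)) + ψ (Sum.inl c) := by
    intro c hc
    obtain ⟨p, hp⟩ := S.exists_up ψ hcore c hc
    obtain ⟨h1, h2⟩ := S'.ends_mem (c, p) hp
    rw [hspec (S.s (Sum.inl c)) p h1, hspec (S.t (Sum.inl c)) (p + ψ (Sum.inl c)) h2]
  have hzero : ∀ c ∈ S.usedC, f (S.val c) = 0 := by
    intro c hc
    have hEq : ∀ v w, Relation.EqvGen
        (fun v w => ∃ d ∈ S.usedC, S.val d = 1 ∧ S.s (Sum.inl d) = v ∧ S.t (Sum.inl d) = w)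
        v w → hgt v = hgt w := by
      intro v w hvw
      induction hvw with
      | rel v w h =>
        obtain ⟨d, hd, hd1, rfl, rfl⟩ := h
        have h0 : f (S.val d) = 0 := by
          rw [hd1]
          have h1 := hf 1
          simpa using h1
        rw [hedge d hd, hψc, h0, mul_zero, add_zero]
      | refl => rfl
      | symm _ _ _ ih => exact ih.symm
      | trans _ _ _ _ _ ih1 ih2 => exact ih1.trans ih2
    have h1 := hEq _ _ (hforest c hc)
    rw [hedge c hc, hψc, left_eq_add, mul_eq_zero] at h1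
    rcases h1 with h1 | h1
    · exact absurd h1 (by exact_mod_cast hD.ne')
    · exact h1
  ext ⟨g, hg⟩
  show φ ⟨g, hg⟩ = 1
  refine Subgroup.closure_induction (p := fun g hg => φ ⟨g, hg⟩ = 1) ?_ ?_ ?_ ?_ hg
  · rintro x ⟨c, hc, rfl⟩
    have h1 := hzero c hc
    rw [show S.val c = ((⟨S.val c, S.val_mem c hc⟩ : S.usedGroup) : G) from rfl, hf] at h1
    exact toAdd_eq_zero.1 h1
  · exact map_one φ
  · intro x y hx hy h1 h2
    have e : (⟨x * y, Subgroup.mul_mem _ hx hy⟩ : S.usedGroup) = ⟨x, hx⟩ * ⟨y, hy⟩ := rfl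
    show φ ⟨x * y, _⟩ = 1
    rw [e, map_mul, h1, h2, one_mul]
  · intro x hx h1
    have e : (⟨x⁻¹, Subgroup.inv_mem _ hx⟩ : S.usedGroup) = ⟨x, hx⟩⁻¹ := rfl
    show φ ⟨x⁻¹, _⟩ = 1
    rw [e, map_inv, h1, inv_one]

end Stage

/-- No stage exists if every finitely generated subgroup is solvable or indicable. -/
theorem stage_false
    (hG : ∀ K : Subgroup G, K.FG → Howie K ∨ ∃ φ : K →* Multiplicative ℤ, φ ≠ 1) :
    ∀ S : Stage G, False := by
  suffices ∀ k, ∀ S : Stage G, S.positions.length - S.vcard = k → False from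
    fun S => this _ S rfl
  intro k
  induction k using Nat.strong_induction_on with
  | _ k ih =>
    intro S hk
    obtain ⟨τ, hτ⟩ := exists_gauge S.s S.t S.val S.usedC
    rcases hG (S.gauge τ).usedGroup (S.gauge τ).usedGroup_fg with hH | ⟨φ, hφ⟩
    · exact (S.gauge τ).false_of_howie hH
    · obtain ⟨S', hlen, hlt⟩ := (S.gauge τ).exists_refinement φ hφ hτ
      have h2 := S'.vcard_le
      have hp : (S.gauge τ).positions = S.positions := rfl
      have hv : (S.gauge τ).vcard = S.vcard := rfl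
      have h3 := S.vcard_le
      have e : (S.gauge τ).positions.length = S.positions.length := rfl
      exact ih _ (by omega) S' rfl

end Vale.Agent.P174
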