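import Mathlib

/-!
Paths in a labelled graph and their lifts along an integer weight.
-/

namespace Vale.Agent.P174

universe u

variable {V C X : Type u} {A : Type} [AddCommGroup A]

/-- Source of an oriented letter. -/
def lsrc (s t : C ⊕ X → V) (a : (C ⊕ X) × Bool) : V := if a.2 then s a.1 else t a.1

/-- Target of an oriented letter. -/
def ldst (s t : C ⊕ X → V) (a : (C ⊕ X) × Bool) : V := if a.2 then t a.1 else s a.1

/-- `IsPath s t v L w`: the word `L` is a path from `v` to `w`. -/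
def IsPath (s t : C ⊕ X → V) : V → List ((C ⊕ X) × Bool) → V → Prop
  | v, [], w => v = w
  | v, a :: L, w => lsrc s t a = v ∧ IsPath s t (ldst s t a) L w

/-- Vertices visited by a word that starts at `v`. -/
def visits (s t : C ⊕ X → V) (v : V) (L : List ((C ⊕ X) × Bool)) : List V :=
  v :: L.map (ldst s t)

/-- Signed weight of a letter. -/
def lwt (ψ : C ⊕ X → A) (a : (C ⊕ X) × Bool) : A := if a.2 then ψ a.1 else -ψ a.1

/-- Weight of a word. -/
def wt (ψ : C ⊕ X → A) (L : List ((C ⊕ X) × Bool)) : A := (L.map (lwt ψ)).sum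

/-- A letter placed at a height. -/
def up : C ⊕ X → A → (C × A) ⊕ (X × A)
  | Sum.inl c, p => Sum.inl (c, p)
  | Sum.inr x, p => Sum.inr (x, p)

/-- Forget the height of a letter. -/
def down (a : ((C × A) ⊕ (X × A)) × Bool) : (C ⊕ X) × Bool := (Sum.map Prod.fst Prod.fst a.1, a.2)

/-- Height of the initial vertex of a lifted edge. -/
def height : (C × A) ⊕ (X × A) → A
  | Sum.inl c => c.2
  | Sum.inr x => x.2

/-- Move a lifted letter by a height. -/
def shiftL (p : A) (a : ((C × A) ⊕ (X × A)) × Bool) : ((C × A) ⊕ (X × A)) × Bool :=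
  (up (Sum.map Prod.fst Prod.fst a.1) (height a.1 + p), a.2)

/-- Initial vertices of the lifted graph. -/
def sUp (s : C ⊕ X → V) (a : (C × A) ⊕ (X × A)) : V × A :=
  (s (Sum.map Prod.fst Prod.fst a), height a)

/-- Final vertices of the lifted graph. -/
def tUp (t : C ⊕ X → V) (ψ : C ⊕ X → A) (a : (C × A) ⊕ (X × A)) : V × A :=
  (t (Sum.map Prod.fst Prod.fst a), height a + ψ (Sum.map Prod.fst Prod.fst a))

/-- The lift of a word starting at height `p`. -/
def lift (ψ : C ⊕ X → A) : A → List ((C ⊕ X) × Bool) → List (((C × A) ⊕ (X × A)) × Bool)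
  | _, [] => []
  | p, (γ, true) :: L => (up γ p, true) :: lift ψ (p + ψ γ) L
  | p, (γ, false) :: L => (up γ (p - ψ γ), false) :: lift ψ (p - ψ γ) L

omit [AddCommGroup A] in
@[simp] theorem map_up (γ : C ⊕ X) (p : A) : Sum.map Prod.fst Prod.fst (up γ p) = γ := by
  cases γ <;> rfl

omit [AddCommGroup A] in
@[simp] theorem height_up (γ : C ⊕ X) (p : A) : height (up γ p) = p := by cases γ <;> rfl

theorem wt_nil (ψ : C ⊕ X → A) : wt ψ [] = 0 := rfl

theorem wt_cons (ψ : C ⊕ X → A) (a : (C ⊕ X) × Bool) (L : List ((C ⊕ X) × Bool)) :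
    wt ψ (a :: L) = lwt ψ a + wt ψ L := by simp [wt]

theorem wt_append (ψ : C ⊕ X → A) (L1 L2 : List ((C ⊕ X) × Bool)) :
    wt ψ (L1 ++ L2) = wt ψ L1 + wt ψ L2 := by simp [wt]

theorem wt_invRev (ψ : C ⊕ X → A) (L : List ((C ⊕ X) × Bool)) :
    wt ψ (FreeGroup.invRev L) = -wt ψ L := by
  induction L with
  | nil => simp [wt, FreeGroup.invRev]
  | cons a L ih =>
    obtain ⟨γ, b⟩ := a
    rw [FreeGroup.invRev_cons, wt_append, ih, wt_cons]
    cases b <;> simp [wt, lwt, FreeGroup.invRev]

theorem lift_append (ψ : C ⊕ X → A) (p : A) (L1 L2 : List ((C ⊕ X) × Bool)) :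
    lift ψ p (L1 ++ L2) = lift ψ p L1 ++ lift ψ (p + wt ψ L1) L2 := by
  induction L1 generalizing p with
  | nil => simp [lift, wt_nil]
  | cons a L1 ih =>
    obtain ⟨γ, b⟩ := a
    cases b <;> simp [lift, ih, wt_cons, lwt, add_assoc, sub_eq_add_neg]

theorem lift_invRev (ψ : C ⊕ X → A) (q : A) (L : List ((C ⊕ X) × Bool)) :
    lift ψ (q + wt ψ L) (FreeGroup.invRev L) = FreeGroup.invRev (lift ψ q L) := by
  induction L generalizing q with
  | nil => simp [lift, FreeGroup.invRev]
  | cons a L ih =>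
    obtain ⟨γ, b⟩ := a
    rw [FreeGroup.invRev_cons, lift_append, wt_invRev, wt_cons]
    cases b
    · have h := ih (q - ψ γ)
      simp only [lwt, Bool.false_eq_true, if_false]
      rw [show q + (-ψ γ + wt ψ L) = q - ψ γ + wt ψ L by abel, h,
        show q - ψ γ + wt ψ L + -wt ψ L = q - ψ γ by abel]
      simp [lift, FreeGroup.invRev]
    · have h := ih (q + ψ γ)
      simp only [lwt, if_true]
      rw [show q + (ψ γ + wt ψ L) = q + ψ γ + wt ψ L by abel, h,
        show q + ψ γ + wt ψ L + -wt ψ L = q + ψ γ by abel]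
      simp [lift, FreeGroup.invRev]

theorem map_down_lift (ψ : C ⊕ X → A) (p : A) (L : List ((C ⊕ X) × Bool)) :
    (lift ψ p L).map down = L := by
  induction L generalizing p with
  | nil => rfl
  | cons a L ih => obtain ⟨γ, b⟩ := a; cases b <;> simp [lift, down, ih]

theorem map_shift_lift (ψ : C ⊕ X → A) (p q : A) (L : List ((C ⊕ X) × Bool)) :
    lift ψ (q + p) L = (lift ψ q L).map (shiftL p) := by
  induction L generalizing q with
  | nil => rfl
  | cons a L ih =>
    obtain ⟨γ, b⟩ := a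
    cases b
    · have h := ih (q - ψ γ)
      rw [show q - ψ γ + p = q + p - ψ γ by abel] at h
      simp [lift, shiftL, h, show q - ψ γ + p = q + p - ψ γ by abel]
    · have h := ih (q + ψ γ)
      rw [show q + ψ γ + p = q + p + ψ γ by abel] at h
      simp [lift, shiftL, h]

theorem isPath_lift (s t : C ⊕ X → V) (ψ : C ⊕ X → A) (v w : V) (p : A)
    (L : List ((C ⊕ X) × Bool)) (h : IsPath s t v L w) :
    IsPath (sUp s) (tUp t ψ) (v, p) (lift ψ p L) (w, p + wt ψ L) := by
  induction L generalizing v p with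
  | nil => simp only [IsPath] at h; subst h; simp [lift, IsPath, wt_nil]
  | cons a L ih =>
    obtain ⟨γ, b⟩ := a
    obtain ⟨h1, h2⟩ := h
    cases b
    · have h3 := ih (ldst s t (γ, false)) (p - ψ γ) h2
      simp [lift, IsPath, lsrc, ldst, sUp, tUp, wt_cons, lwt] at h1 h3 ⊢
      refine ⟨h1, ?_⟩
      rw [show p + (-ψ γ + wt ψ L) = p - ψ γ + wt ψ L by abel]
      exact h3
    · have h3 := ih (ldst s t (γ, true)) (p + ψ γ) h2
      simp [lift, IsPath, lsrc, ldst, sUp, tUp, wt_cons, lwt] at h1 h3 ⊢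
      refine ⟨h1, ?_⟩
      rw [← add_assoc]
      exact h3

theorem ldst_down (s t : C ⊕ X → V) (ψ : C ⊕ X → A) (a : ((C × A) ⊕ (X × A)) × Bool) :
    (ldst (sUp s) (tUp t ψ) a).1 = ldst s t (down a) := by
  obtain ⟨γ, b⟩ := a; cases b <;> simp [ldst, sUp, tUp, down]

theorem visits_lift (s t : C ⊕ X → V) (ψ : C ⊕ X → A) (v : V) (p : A)
    (L : List ((C ⊕ X) × Bool)) :
    (visits (sUp s) (tUp t ψ) (v, p) (lift ψ p L)).map Prod.fst = visits s t v L := by
  conv_rhs => rw [← map_down_lift ψ p L]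
  simp only [visits, List.map_cons, List.map_map, List.cons.injEq, true_and]
  exact List.map_congr_left fun a _ => ldst_down s t ψ a

theorem mem_visits (s t : C ⊕ X → V) (v w : V) (L : List ((C ⊕ X) × Bool))
    (h : IsPath s t v L w) (a : (C ⊕ X) × Bool) (ha : a ∈ L) :
    s a.1 ∈ visits s t v L ∧ t a.1 ∈ visits s t v L := by
  induction L generalizing v with
  | nil => simp at ha
  | cons b L ih =>
    obtain ⟨h1, h2⟩ := h
    rcases List.mem_cons.1 ha with rfl | ha'
    · obtain ⟨γ, e⟩ := a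
      cases e <;> simp [visits, lsrc, ldst] at h1 ⊢ <;> simp [h1]
    · have h3 := ih _ h2 ha'
      simp only [visits, List.map_cons, List.mem_cons] at h3 ⊢
      tauto

theorem lift_eq_of_mk_eq (ψ : C ⊕ X → A) (L1 L2 : List ((C ⊕ X) × Bool))
    (h : FreeGroup.mk L1 = FreeGroup.mk L2) :
    wt ψ L1 = wt ψ L2 ∧ ∀ p, FreeGroup.mk (lift ψ p L1) = FreeGroup.mk (lift ψ p L2) := by
  have h' : Relation.EqvGen FreeGroup.Red.Step L1 L2 := Quot.eqvGen_exact h
  induction h' with
  | refl => exact ⟨rfl, fun _ => rfl⟩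
  | symm _ _ _ ih =>
    have h2 := ih (by exact Quot.eqvGen_sound (by assumption))
    exact ⟨h2.1.symm, fun p => (h2.2 p).symm⟩
  | trans _ _ _ h1 h2 ih1 ih2 =>
    have e1 := ih1 (Quot.eqvGen_sound h1)
    have e2 := ih2 (Quot.eqvGen_sound h2)
    exact ⟨e1.1.trans e2.1, fun p => (e1.2 p).trans (e2.2 p)⟩
  | rel M1 M2 hs =>
    cases hs with
    | @not M3 M4 x b =>
      constructor
      · cases b <;> simp [wt_append, wt_cons, lwt]
      · intro p
        cases b
        · simp only [lift_append, lift, Bool.not_false, sub_add_cancel]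
          exact Quot.sound FreeGroup.Red.Step.not
        · simp only [lift_append, lift, Bool.not_true, add_sub_cancel_right]
          exact Quot.sound FreeGroup.Red.Step.not

end Vale.Agent.P174
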