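import Vale.Agent.P174.Induction

/-!
Howie's conjecture for groups whose finitely generated subgroups are solvable or indicable.
-/

namespace Vale.Agent.P174

universe u

variable {G : Type u} [Group G]

theorem isPath_punit {C X : Type u} (s t : C ⊕ X → PUnit.{u + 1}) (v w : PUnit.{u + 1})
    (L : List ((C ⊕ X) × Bool)) : IsPath s t v L w := by
  induction L generalizing v with
  | nil => exact Subsingleton.elim _ _
  | cons a L ih => exact ⟨Subsingleton.elim _ _, ih _⟩

/-- The cores of the first stage: the equations and the multiplication table of `G`. -/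
def core0 {n : ℕ} {I : Type u} (L : I → List ((G ⊕ ULift.{u} (Fin n)) × Bool)) :
    I ⊕ (G × G) → List ((G ⊕ ULift.{u} (Fin n)) × Bool) :=
  Sum.elim L (fun ab => [(Sum.inl ab.1, true), (Sum.inl ab.2, true),
    (Sum.inl (ab.1 * ab.2), false)])

theorem eq_one_of_mem_normalClosure
    (hG : ∀ K : Subgroup G, K.FG → Howie K ∨ ∃ φ : K →* Multiplicative ℤ, φ ≠ 1)
    {m n : ℕ} (w : Fin m → Monoid.Coprod G (FreeGroup (Fin n))) (hw : Nonsingular w) (g : G)
    (hg : (Monoid.Coprod.inl g : Monoid.Coprod G (FreeGroup (Fin n))) ∈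
      Subgroup.normalClosure (Set.range w)) : g = 1 := by
  classical
  by_contra hne
  let π : FreeGroup (G ⊕ ULift.{u} (Fin n)) →* Monoid.Coprod G (FreeGroup (Fin n)) :=
    FreeGroup.lift (Sum.elim (fun a => Monoid.Coprod.inl a)
      (fun x => Monoid.Coprod.inr (FreeGroup.of x.down)))
  have hsurj : ∀ z, ∃ L, π (FreeGroup.mk L) = z := by
    intro z
    suffices z ∈ π.range by
      obtain ⟨y, rfl⟩ := this
      exact ⟨y.toWord, by rw [FreeGroup.mk_toWord]⟩
    induction z using Monoid.Coprod.induction_on with
    | inl a => exact ⟨FreeGroup.of (Sum.inl a), by simp [π]⟩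
    | inr y =>
      induction y using FreeGroup.induction_on with
      | C1 => simp
      | of j => exact ⟨FreeGroup.of (Sum.inr ⟨j⟩), by simp [π]⟩
      | inv_of j h => rw [map_inv]; exact π.range.inv_mem h
      | mul a b ha hb => rw [map_mul]; exact π.range.mul_mem ha hb
    | mul a b ha hb => exact π.range.mul_mem ha hb
  choose Lw hLw using fun i => hsurj (w i)
  let core : ULift.{u} (Fin m) ⊕ (G × G) → List ((G ⊕ ULift.{u} (Fin n)) × Bool) :=
    core0 (fun i => Lw i.down)
  let N : Subgroup (FreeGroup (G ⊕ ULift.{u} (Fin n))) :=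
    Subgroup.normalClosure (Set.range fun j => FreeGroup.mk (core j))
  let mk' := QuotientGroup.mk' N
  have hcore1 : ∀ j, mk' (FreeGroup.mk (core j)) = 1 := fun j =>
    (QuotientGroup.eq_one_iff _).2 (Subgroup.subset_normalClosure ⟨j, rfl⟩)
  let jh : G →* FreeGroup (G ⊕ ULift.{u} (Fin n)) ⧸ N :=
    MonoidHom.mk' (fun a => mk' (FreeGroup.of (Sum.inl a))) (fun a b => by
      have h1 := hcore1 (Sum.inr (a, b))
      have h2 : FreeGroup.mk (core (Sum.inr (a, b))) = FreeGroup.of (Sum.inl a) *
          FreeGroup.of (Sum.inl b) * (FreeGroup.of (Sum.inl (a * b)))⁻¹ := by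
        simp [core, core0, FreeGroup.of, FreeGroup.inv_mk, FreeGroup.mul_mk, FreeGroup.invRev]
      rw [h2, map_mul, map_mul, map_inv, mul_inv_eq_one] at h1
      exact h1.symm)
  let back : Monoid.Coprod G (FreeGroup (Fin n)) →* FreeGroup (G ⊕ ULift.{u} (Fin n)) ⧸ N :=
    Monoid.Coprod.lift jh (FreeGroup.lift fun j => mk' (FreeGroup.of (Sum.inr ⟨j⟩)))
  have hback : back.comp π = mk' := by
    ext x
    rcases x with a | x <;> simp [back, π, jh]
  have hker : Subgroup.normalClosure (Set.range w) ≤ back.ker := by
    refine Subgroup.normalClosure_le_normal ?_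
    rintro _ ⟨i, rfl⟩
    show back (w i) = 1
    rw [← hLw i, ← MonoidHom.comp_apply, hback]
    exact hcore1 (Sum.inl ⟨i⟩)
  have hgN : FreeGroup.mk [((Sum.inl g : G ⊕ ULift.{u} (Fin n)), true)] ∈ N := by
    refine (QuotientGroup.eq_one_iff _).1 ?_
    have h1 : back (Monoid.Coprod.inl g) = 1 := hker hg
    show mk' (FreeGroup.of (Sum.inl g)) = 1
    simpa [back, jh, mk'] using h1
  have hlist : ∀ z ∈ N, ∃ l : List (List ((G ⊕ ULift.{u} (Fin n)) × Bool) ×
      (ULift.{u} (Fin m) ⊕ (G × G)) × Bool), z = FreeGroup.mk (l.flatMap (block core)) := by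
    intro z hz
    induction hz using Subgroup.closure_induction_left with
    | one => exact ⟨[], rfl⟩
    | mul_left x hx y _ ih =>
      obtain ⟨l, rfl⟩ := ih
      obtain ⟨_, ⟨j, rfl⟩, hc⟩ := Group.mem_conjugatesOfSet_iff.1 hx
      obtain ⟨c, rfl⟩ := isConj_iff.1 hc
      refine ⟨(c.toWord, j, true) :: l, ?_⟩
      rw [List.flatMap_cons, ← FreeGroup.mul_mk]
      simp only [block, if_true]
      rw [← FreeGroup.mul_mk, ← FreeGroup.mul_mk, ← FreeGroup.inv_mk, FreeGroup.mk_toWord]
      group
    | inv_mul_cancel x hx y _ ih =>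
      obtain ⟨l, rfl⟩ := ih
      obtain ⟨_, ⟨j, rfl⟩, hc⟩ := Group.mem_conjugatesOfSet_iff.1 hx
      obtain ⟨c, rfl⟩ := isConj_iff.1 hc
      refine ⟨(c.toWord, j, false) :: l, ?_⟩
      rw [List.flatMap_cons, ← FreeGroup.mul_mk]
      simp only [block, Bool.false_eq_true, if_false]
      rw [← FreeGroup.mul_mk, ← FreeGroup.mul_mk, ← FreeGroup.inv_mk, ← FreeGroup.inv_mk,
        FreeGroup.mk_toWord]
      group
  obtain ⟨items, hitems⟩ := hlist _ hgN
  have hexpo : ∀ L j, ((Multiplicative.toAdd (expSum G n (π (FreeGroup.mk L))) j : ℤ) : ℚ) =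
      expo L (ULift.up j) := by
    intro L j
    induction L with
    | nil => simp [π, FreeGroup.lift_mk, expo_nil]
    | cons a L ih =>
      have hsplit : FreeGroup.mk (a :: L) = FreeGroup.mk [a] * FreeGroup.mk L := by
        rw [FreeGroup.mul_mk]; rfl
      rw [hsplit, map_mul, map_mul, toAdd_mul, Pi.add_apply, Int.cast_add, ih, expo_cons,
        Finsupp.add_apply]
      congr 1
      obtain ⟨c | x, b⟩ := a
      · cases b <;> simp [π, FreeGroup.lift_mk, lex, expSum]
      · obtain ⟨y⟩ := x
        by_cases hj : y = j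
        · subst hj
          cases b <;> simp [π, FreeGroup.lift_mk, lex, expSum]
        · have hx : (ULift.up j : ULift.{u} (Fin n)) ≠ ULift.up y :=
            fun e => hj (congrArg ULift.down e).symm
          cases b <;> simp [π, FreeGroup.lift_mk, lex, expSum, Finsupp.single_eq_of_ne hx,
            Pi.single_eq_of_ne (Ne.symm hj)]
  have hindep : LinearIndependent ℚ (fun i => expo (core (Sum.inl i))) := by
    let Φ : (ULift.{u} (Fin n) →₀ ℚ) →ₗ[ℚ] (Fin n → ℚ) :=
      LinearMap.pi fun j => Finsupp.lapply (ULift.up j)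
    refine LinearIndependent.of_comp Φ ?_
    have h1 : (Φ ∘ fun i => expo (core (Sum.inl i))) = fun i : ULift.{u} (Fin m) =>
        (fun j => ((Multiplicative.toAdd (expSum G n (w i.down)) j : ℤ) : ℚ)) := by
      funext i j
      rw [← hLw, hexpo]
      rfl
    rw [h1]
    exact LinearIndependent.comp hw ULift.down ULift.down_injective
  exact stage_false hG
    { V := PUnit.{u + 1}
      C := G
      X := ULift.{u} (Fin n)
      I := ULift.{u} (Fin m)
      R := G × G
      s := fun _ => PUnit.unit
      t := fun _ => PUnit.unit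
      val := id
      core := core
      base := fun _ => PUnit.unit
      o := PUnit.unit
      lhs := [(Sum.inl g, true)]
      items := items
      indep := hindep
      path_lhs := isPath_punit _ _ _ _ _
      coef_lhs := fun a ha => ⟨g, by simp at ha; rw [ha]⟩
      ev_lhs := by simpa [ev, FreeGroup.lift_mk] using hne
      path_conj := fun _ _ => isPath_punit _ _ _ _ _
      path_core := fun _ _ => isPath_punit _ _ _ _ _
      rel := fun it _ r hr => by
        rw [hr]
        refine ⟨fun a ha => ?_, ?_⟩
        · simp [core, core0] at ha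
          rcases ha with rfl | rfl | rfl <;> exact ⟨_, rfl⟩
        · simp [core, core0, ev, FreeGroup.lift_mk]
      ident := hitems }

/-- **Closure theorem.** If every finitely generated subgroup satisfies Howie's conjecture or has
a nontrivial homomorphism to `ℤ`, then the group satisfies Howie's conjecture. -/
theorem howie_of_forall_fg
    (hG : ∀ K : Subgroup G, K.FG → Howie K ∨ ∃ φ : K →* Multiplicative ℤ, φ ≠ 1) : Howie G := by
  intro m n w hw
  let N : Subgroup (Monoid.Coprod G (FreeGroup (Fin n))) := Subgroup.normalClosure (Set.range w)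
  let mk' := QuotientGroup.mk' N
  refine ⟨Monoid.Coprod G (FreeGroup (Fin n)) ⧸ N, inferInstance, mk'.comp Monoid.Coprod.inl,
    fun j => mk' (Monoid.Coprod.inr (FreeGroup.of j)), ?_, fun i => ?_⟩
  · refine (injective_iff_map_eq_one _).2 fun g hg => ?_
    exact eq_one_of_mem_normalClosure hG w hw g ((QuotientGroup.eq_one_iff _).1 hg)
  · have h1 : Monoid.Coprod.lift (mk'.comp Monoid.Coprod.inl)
        (FreeGroup.lift fun j => mk' (Monoid.Coprod.inr (FreeGroup.of j))) = mk' := by
      apply Monoid.Coprod.hom_ext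
      · rw [Monoid.Coprod.lift_comp_inl]
      · rw [Monoid.Coprod.lift_comp_inr]
        ext j
        simp
    rw [h1]
    exact (QuotientGroup.eq_one_iff _).2 (Subgroup.subset_normalClosure ⟨i, rfl⟩)

/-- Abelian groups satisfy Howie's conjecture. -/
theorem howie_of_comm (hc : ∀ a b : G, a * b = b * a) : Howie G := by
  intro m n w hw
  letI : CommGroup G := { ‹Group G› with mul_comm := hc }
  let D : Type u := CharacterModule (Additive G) → AddCircle (1 : ℚ)
  let ev0 : Additive G →+ D :=
    { toFun := fun a c => c a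
      map_zero' := funext fun c => map_zero c
      map_add' := fun a b => funext fun c => map_add c a b }
  have hev : Function.Injective ev0 := (injective_iff_map_eq_zero ev0).2 fun a ha =>
    CharacterModule.eq_zero_of_character_apply fun c => congrFun ha c
  let ι : G →* Multiplicative D :=
    { toFun := fun a => Multiplicative.ofAdd (ev0 (Additive.ofMul a))
      map_one' := by simp
      map_mul' := fun a b => by simp }
  let a : Fin m → (Fin n → ℤ) := fun i => Multiplicative.toAdd (expSum G n (w i))
  let b : Fin m → D := fun i => -Multiplicative.toAdd (Monoid.Coprod.lift ι 1 (w i))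
  let f : (Fin m → ℤ) →+ (Fin n → ℤ) :=
    { toFun := fun c => ∑ i, c i • a i
      map_zero' := by simp
      map_add' := fun c d => by simp [add_smul, Finset.sum_add_distrib] }
  let g : (Fin m → ℤ) →+ D :=
    { toFun := fun c => ∑ i, c i • b i
      map_zero' := by simp
      map_add' := fun c d => by simp [add_smul, Finset.sum_add_distrib] }
  have hf : Function.Injective f := by
    refine (injective_iff_map_eq_zero f).2 fun c hc0 => ?_
    have h1 := Fintype.linearIndependent_iff.1 hw (fun i => (c i : ℚ)) (by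
      funext j
      have h2 := congrFun hc0 j
      simp only [f, AddMonoidHom.coe_mk, ZeroHom.coe_mk, Finset.sum_apply, Pi.smul_apply,
        smul_eq_mul, Pi.zero_apply] at h2
      simp only [Finset.sum_apply, Pi.smul_apply, smul_eq_mul, Pi.zero_apply]
      exact_mod_cast h2)
    funext i
    exact_mod_cast h1 i
  obtain ⟨e, he⟩ := (Module.Baer.of_divisible D).extension_property_addMonoidHom f hf g
  let h : Fin n → Multiplicative D := fun j => Multiplicative.ofAdd (e (Pi.single j 1))
  refine ⟨Multiplicative D, inferInstance, ι, h, ?_, fun i => ?_⟩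
  · intro x y hxy
    exact Additive.ofMul.injective (hev (Multiplicative.ofAdd.injective hxy))
  · have hhom : Monoid.Coprod.lift ι (FreeGroup.lift h) =
        Monoid.Coprod.lift ι 1 * (AddMonoidHom.toMultiplicative e).comp (expSum G n) := by
      apply Monoid.Coprod.hom_ext
      · ext x
        simp [expSum]
      · ext j
        simp [expSum, h]
    rw [hhom]
    simp only [MonoidHom.mul_apply, MonoidHom.comp_apply]
    have h2 := DFunLike.congr_fun he (Pi.single i 1)
    simp only [AddMonoidHom.comp_apply, f, g, AddMonoidHom.coe_mk, ZeroHom.coe_mk] at h2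
    rw [Finset.sum_eq_single i, Finset.sum_eq_single i] at h2
    · simp only [Pi.single_eq_same, one_smul] at h2
      apply Multiplicative.toAdd.injective
      show Multiplicative.toAdd (Monoid.Coprod.lift ι 1 (w i)) + e (a i) = 0
      rw [h2]
      exact add_neg_cancel _
    all_goals intros <;> simp_all [Pi.single_eq_of_ne]

theorem Howie.of_injective {K : Type u} [Group K] (hG : Howie G) (φ : K →* G)
    (hφ : Function.Injective φ) : Howie K := by
  intro m n w hw
  let Ψ : Monoid.Coprod K (FreeGroup (Fin n)) →* Monoid.Coprod G (FreeGroup (Fin n)) :=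
    Monoid.Coprod.map φ (MonoidHom.id _)
  have hexp : (expSum G n).comp Ψ = expSum K n := by
    apply Monoid.Coprod.hom_ext <;> ext x <;> simp [expSum, Ψ]
  have hw' : Nonsingular (fun i => Ψ (w i)) := by
    unfold Nonsingular
    simp only [← MonoidHom.comp_apply, hexp]
    exact hw
  obtain ⟨H, hH, ι, h, hι, hs⟩ := hG m n _ hw'
  refine ⟨H, hH, ι.comp φ, h, hι.comp hφ, fun i => ?_⟩
  have h1 : Monoid.Coprod.lift (ι.comp φ) (FreeGroup.lift h) =
      (Monoid.Coprod.lift ι (FreeGroup.lift h)).comp Ψ := by
    apply Monoid.Coprod.hom_ext <;> ext x <;> simp [Ψ]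
  rw [h1]
  exact hs i

/-- Every nontrivial finitely generated subgroup maps onto `ℤ`. -/
def LocallyIndicable (G : Type u) [Group G] : Prop :=
  ∀ K : Subgroup G, K.FG → K ≠ ⊥ → ∃ φ : K →* Multiplicative ℤ, Function.Surjective φ

theorem howie_extension (N : Subgroup G) [N.Normal] (hN : Howie N)
    (hQ : LocallyIndicable (G ⧸ N)) : Howie G := by
  refine howie_of_forall_fg fun K hK => ?_
  by_cases hKN : K ≤ N
  · exact Or.inl (hN.of_injective (Subgroup.inclusion hKN) (Subgroup.inclusion_injective hKN))
  · refine Or.inr ?_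
    let q := QuotientGroup.mk' N
    have hKq : (K.map q).FG := by
      obtain ⟨S, hS, hfin⟩ := (Subgroup.fg_iff K).1 hK
      exact (Subgroup.fg_iff _).2 ⟨q '' S, by rw [← MonoidHom.map_closure, hS], hfin.image q⟩
    obtain ⟨φ, hφ⟩ := hQ (K.map q) hKq (by
      rw [Ne, Subgroup.map_eq_bot_iff, QuotientGroup.ker_mk']
      exact hKN)
    refine ⟨φ.comp (q.subgroupMap K), fun h => ?_⟩
    have hs : Function.Surjective (φ.comp (q.subgroupMap K)) :=
      hφ.comp (MonoidHom.subgroupMap_surjective q K)
    obtain ⟨x, hx⟩ := hs (Multiplicative.ofAdd 1)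
    rw [h] at hx
    exact absurd (congrArg Multiplicative.toAdd hx) (by simp)

end Vale.Agent.P174
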