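import Vale.Agent.P174.Main

/-!
P174: groups separated by homomorphisms into solvable-system groups.
-/

namespace Vale.Agent.P174

universe u

variable {G : Type u} [Group G]

/-- If every nontrivial element survives in a group satisfying Howie's conjecture, so does `G`. -/
theorem howie_of_residually
    (hG : ∀ g : G, g ≠ 1 → ∃ (K : Type u) (_ : Group K) (f : G →* K), Howie K ∧ f g ≠ 1) :
    Howie G := by
  intro m n w hw
  choose K hK f hf hne using hG
  have hsol : ∀ (g : G) (hg : g ≠ 1), ∃ (H : Type u) (_ : Group H) (ι : G →* H) (h : Fin n → H),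
      ι g ≠ 1 ∧ ∀ i, Monoid.Coprod.lift ι (FreeGroup.lift h) (w i) = 1 := by
    intro g hg
    let Ψ : Monoid.Coprod G (FreeGroup (Fin n)) →* Monoid.Coprod (K g hg) (FreeGroup (Fin n)) :=
      Monoid.Coprod.map (f g hg) (MonoidHom.id _)
    have hexp : (expSum (K g hg) n).comp Ψ = expSum G n := by
      apply Monoid.Coprod.hom_ext <;> ext x <;> simp [expSum, Ψ]
    have hw' : Nonsingular (fun i => Ψ (w i)) := by
      unfold Nonsingular
      simp only [← MonoidHom.comp_apply, hexp]
      exact hw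
    obtain ⟨H, hH, ι, h, hι, hs⟩ := hf g hg m n _ hw'
    refine ⟨H, hH, ι.comp (f g hg), h, fun h0 => hne g hg (hι (h0.trans ι.map_one.symm)), fun i => ?_⟩
    have h1 : Monoid.Coprod.lift (ι.comp (f g hg)) (FreeGroup.lift h) =
        (Monoid.Coprod.lift ι (FreeGroup.lift h)).comp Ψ := by
      apply Monoid.Coprod.hom_ext <;> ext x <;> simp [Ψ]
    rw [h1]
    exact hs i
  choose H hH ι h hι hs using hsol
  let P : Type u := (g : {g : G // g ≠ 1}) → H g.1 g.2
  refine ⟨P, inferInstance, MonoidHom.pi fun g => ι g.1 g.2, fun j g => h g.1 g.2 j, ?_, fun i => ?_⟩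
  · refine (injective_iff_map_eq_one _).2 fun g hg => ?_
    by_contra hne'
    exact hι g hne' (congrFun hg ⟨g, hne'⟩)
  · funext g
    have h1 : (Pi.evalMonoidHom (fun g : {g : G // g ≠ 1} => H g.1 g.2) g).comp
        (Monoid.Coprod.lift (MonoidHom.pi fun g => ι g.1 g.2)
          (FreeGroup.lift fun (j : Fin n) (g : {g : G // g ≠ 1}) => h g.1 g.2 j)) =
        Monoid.Coprod.lift (ι g.1 g.2) (FreeGroup.lift (h g.1 g.2)) := by
      apply Monoid.Coprod.hom_ext <;> ext x <;> simp
    exact (DFunLike.congr_fun h1 (w i)).trans (hs g.1 g.2 i)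

end Vale.Agent.P174
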