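import Vale.Agent.P174.Lift

/-!
Exponent rows, and the independence of the rows of a lifted system.
-/

namespace Vale.Agent.P174

universe u

variable {C X : Type u}

/-- Exponent contribution of a letter. -/
noncomputable def lex : (C ⊕ X) × Bool → (X →₀ ℚ)
  | (Sum.inl _, _) => 0
  | (Sum.inr x, b) => Finsupp.single x (if b then 1 else -1)

/-- Exponent vector of a word in the unknowns. -/
noncomputable def expo (L : List ((C ⊕ X) × Bool)) : X →₀ ℚ := (L.map lex).sum

theorem expo_cons (a : (C ⊕ X) × Bool) (L : List ((C ⊕ X) × Bool)) :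
    expo (a :: L) = lex a + expo L := by simp [expo]

theorem expo_nil : expo ([] : List ((C ⊕ X) × Bool)) = 0 := rfl

theorem expo_apply_eq_zero (x : X) (L : List ((C ⊕ X) × Bool))
    (h : ∀ a ∈ L, a.1 ≠ Sum.inr x) : expo L x = 0 := by
  induction L with
  | nil => rfl
  | cons a L ih =>
    rw [expo_cons, Finsupp.add_apply, ih (fun b hb => h b (List.mem_cons_of_mem _ hb)), add_zero]
    obtain ⟨c | y, b⟩ := a
    · rfl
    · have hy : y ≠ x := fun e => h (Sum.inr y, b) (List.mem_cons_self ..) (by rw [e])
      simp only [lex]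
      exact Finsupp.single_eq_of_ne (Ne.symm hy)

theorem expo_map_shift (p : ℤ) (L : List (((C × ℤ) ⊕ (X × ℤ)) × Bool)) :
    expo (L.map (shiftL p)) =
      Finsupp.mapDomain (fun a : X × ℤ => (a.1, a.2 + p)) (expo L) := by
  induction L with
  | nil => simp [expo_nil]
  | cons a L ih =>
    rw [List.map_cons, expo_cons, expo_cons, Finsupp.mapDomain_add, ih]
    congr 1
    obtain ⟨c | y, b⟩ := a
    · simp [shiftL, lex, up, height]
    · simp [shiftL, lex, up, height, Finsupp.mapDomain_single]

theorem expo_map_down (L : List (((C × ℤ) ⊕ (X × ℤ)) × Bool)) :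
    expo (L.map down) = Finsupp.mapDomain Prod.fst (expo L) := by
  induction L with
  | nil => simp [expo_nil]
  | cons a L ih =>
    rw [List.map_cons, expo_cons, expo_cons, Finsupp.mapDomain_add, ih]
    congr 1
    obtain ⟨c | y, b⟩ := a
    · simp [down, lex]
    · simp [down, lex, Finsupp.mapDomain_single]

/-- The `k`-th moment of a finitely supported function on `X × ℤ`. -/
noncomputable def moment (k : ℕ) : (X × ℤ →₀ ℚ) →ₗ[ℚ] (X →₀ ℚ) :=
  Finsupp.linearCombination ℚ (fun a : X × ℤ => Finsupp.single a.1 ((a.2 : ℚ) ^ k))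

theorem moment_zero (v : X × ℤ →₀ ℚ) : moment 0 v = Finsupp.mapDomain Prod.fst v := by
  induction v using Finsupp.induction_linear with
  | zero => simp
  | add f g hf hg => rw [map_add, Finsupp.mapDomain_add, hf, hg]
  | single a b => simp [moment, Finsupp.mapDomain_single]

theorem moment_shift (k : ℕ) (p : ℤ) (v : X × ℤ →₀ ℚ) :
    moment k (Finsupp.mapDomain (fun a : X × ℤ => (a.1, a.2 + p)) v) =
      ∑ l ∈ Finset.range (k + 1), ((p : ℚ) ^ l * (k.choose l : ℚ)) • moment (k - l) v := by
  induction v using Finsupp.induction_linear with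
  | zero => simp
  | add f g hf hg =>
    simp only [Finsupp.mapDomain_add, map_add, hf, hg, smul_add, Finset.sum_add_distrib]
  | single a b =>
    simp only [moment, Finsupp.mapDomain_single, Finsupp.linearCombination_single,
      Finsupp.smul_single, smul_eq_mul]
    rw [← Finsupp.single_finsetSum]
    congr 1
    push_cast
    rw [add_comm (a.2 : ℚ), add_pow, Finset.mul_sum]
    exact Finset.sum_congr rfl fun l _ => by ring

/-- A finite set of integers and a function with all moments zero vanishes. -/
theorem eq_zero_of_moments (P : Finset ℤ) (c : ℤ → ℚ)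
    (h : ∀ k : ℕ, ∑ p ∈ P, c p * (p : ℚ) ^ k = 0) (q : ℤ) (hq : q ∈ P) : c q = 0 := by
  classical
  have hpoly : ∀ F : Polynomial ℚ, ∑ p ∈ P, c p * F.eval (p : ℚ) = 0 := by
    intro F
    induction F using Polynomial.induction_on' with
    | add F G hF hG => simp [mul_add, Finset.sum_add_distrib, hF, hG]
    | monomial k a =>
      have h2 := congrArg (fun z => a * z) (h k)
      simp only [Finset.mul_sum, mul_zero] at h2
      rw [← h2]
      exact Finset.sum_congr rfl fun p _ => by simp; ring
  have h1 := hpoly (∏ p ∈ P.erase q, (Polynomial.X - Polynomial.C (p : ℚ)))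
  simp only [Polynomial.eval_prod, Polynomial.eval_sub, Polynomial.eval_X, Polynomial.eval_C] at h1
  rw [Finset.sum_eq_single q] at h1
  · rcases mul_eq_zero.1 h1 with h2 | h2
    · exact h2
    · obtain ⟨p, hp, hp0⟩ := Finset.prod_eq_zero_iff.1 h2
      have hne : p ≠ q := (Finset.mem_erase.1 hp).1
      exact absurd (Int.cast_inj.1 (sub_eq_zero.1 hp0)).symm hne
  · intro p hp hpq
    rw [Finset.prod_eq_zero (Finset.mem_erase.2 ⟨hpq, hp⟩) (by simp), mul_zero]
  · exact fun hn => absurd hq hn

/-- The shifts of a family with independent augmentations are independent. -/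
theorem linearIndependent_shift {I : Type u} (v : I → (X × ℤ →₀ ℚ))
    (hv : LinearIndependent ℚ (fun i => Finsupp.mapDomain Prod.fst (v i))) :
    LinearIndependent ℚ
      (fun ip : I × ℤ => Finsupp.mapDomain (fun a : X × ℤ => (a.1, a.2 + ip.2)) (v ip.1)) := by
  classical
  rw [linearIndependent_iff']
  intro S g hg ip hip
  let Is : Finset I := S.image Prod.fst
  let Ps : Finset ℤ := S.image Prod.snd
  let c : I → ℤ → ℚ := fun i p => if (i, p) ∈ S then g (i, p) else 0
  have hS : S ⊆ Is ×ˢ Ps := fun a ha =>
    Finset.mem_product.2 ⟨Finset.mem_image_of_mem _ ha, Finset.mem_image_of_mem _ ha⟩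
  have hsum : ∑ a ∈ Is ×ˢ Ps, c a.1 a.2 •
      Finsupp.mapDomain (fun b : X × ℤ => (b.1, b.2 + a.2)) (v a.1) = 0 := by
    rw [← Finset.sum_subset hS]
    · rw [← hg]
      exact Finset.sum_congr rfl fun a ha => by simp [c, ha]
    · intro a _ ha
      simp [c, ha]
  have hM : ∀ k : ℕ, ∀ i ∈ Is, ∑ p ∈ Ps, c i p * (p : ℚ) ^ k = 0 := by
    intro k
    induction k using Nat.strong_induction_on with
    | _ k ih =>
      have h1 := congrArg (moment k) hsum
      simp only [map_sum, map_smul, map_zero, moment_shift, Finset.smul_sum, smul_smul] at h1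
      rw [Finset.sum_comm, Finset.sum_range_succ] at h1
      have h2 : ∀ l, ∑ a ∈ Is ×ˢ Ps,
          (c a.1 a.2 * ((a.2 : ℚ) ^ l * (k.choose l : ℚ))) • moment (k - l) (v a.1) =
          ∑ i ∈ Is, ((∑ p ∈ Ps, c i p * (p : ℚ) ^ l) * (k.choose l : ℚ)) • moment (k - l) (v i) := by
        intro l
        rw [Finset.sum_product]
        refine Finset.sum_congr rfl fun i _ => ?_
        rw [Finset.sum_mul, Finset.sum_smul]
        exact Finset.sum_congr rfl fun p _ => by rw [mul_assoc]
      rw [Finset.sum_eq_zero, zero_add, h2] at h1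
      · simp only [Nat.choose_self, Nat.cast_one, mul_one, Nat.sub_self, moment_zero] at h1
        exact fun i hi => linearIndependent_iff'.1 hv Is _ h1 i hi
      · intro l hl
        rw [h2]
        refine Finset.sum_eq_zero fun i hi => ?_
        rw [ih l (Finset.mem_range.1 hl) i hi, zero_mul, zero_smul]
  have h3 := eq_zero_of_moments Ps (c ip.1) (fun k => hM k ip.1 (Finset.mem_image_of_mem _ hip))
    ip.2 (Finset.mem_image_of_mem _ hip)
  simpa [c, hip] using h3

theorem linearIndependent_expo_lift {I : Type u} (ψ : C ⊕ X → ℤ)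
    (core : I → List ((C ⊕ X) × Bool)) (h : LinearIndependent ℚ (fun i => expo (core i))) :
    LinearIndependent ℚ (fun ip : I × ℤ => expo (lift ψ ip.2 (core ip.1))) := by
  have h1 : (fun i => Finsupp.mapDomain Prod.fst (expo (lift ψ 0 (core i)))) =
      fun i => expo (core i) := by
    funext i; rw [← expo_map_down, map_down_lift]
  have h2 := linearIndependent_shift (fun i => expo (lift ψ 0 (core i))) (h1 ▸ h)
  have h3 : (fun ip : I × ℤ => expo (lift ψ ip.2 (core ip.1))) = fun ip : I × ℤ =>
      Finsupp.mapDomain (fun a : X × ℤ => (a.1, a.2 + ip.2)) (expo (lift ψ 0 (core ip.1))) := by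
    funext ip
    rw [← expo_map_shift, ← map_shift_lift, zero_add]
  rw [h3]
  exact h2

end Vale.Agent.P174
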