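import Vale.Agent.P174.Tower

/-!
The terminal case and the inductive step of the tower.
-/

namespace Vale.Agent.P174

universe u

variable {G : Type u} [Group G]

namespace Stage

variable (S : Stage G)

/-- Change of gauge. -/
noncomputable def gauge (τ : S.V → G) : Stage G :=
  { S with
    val := gval S.s S.t τ S.val
    ev_lhs := by
      intro h
      rw [ev_gauge S.s S.t τ S.val S.o S.o S.lhs S.path_lhs S.coef_lhs, mul_inv_eq_one] at h
      exact S.ev_lhs (mul_eq_left.1 h)
    rel := by
      intro it hit r hr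
      obtain ⟨h1, h2⟩ := S.rel it hit r hr
      refine ⟨h1, ?_⟩
      rw [ev_gauge S.s S.t τ S.val _ _ _ (S.path_core it hit) h1, h2]
      simp }

/-- The subgroup generated by the used values. -/
def usedGroup : Subgroup G := Subgroup.closure (S.val '' {c | c ∈ S.usedC})

theorem usedGroup_fg : S.usedGroup.FG := by
  refine (Subgroup.fg_iff _).2 ⟨_, rfl, ?_⟩
  exact Set.Finite.image _ S.usedC.finite_toSet

theorem val_mem (c : S.C) (h : c ∈ S.usedC) : S.val c ∈ S.usedGroup :=
  Subgroup.subset_closure ⟨c, h, rfl⟩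

theorem conj_sub (it : List ((S.C ⊕ S.X) × Bool) × (S.I ⊕ S.R) × Bool) (hit : it ∈ S.items)
    (a : (S.C ⊕ S.X) × Bool) (ha : a ∈ it.1 ∨ a ∈ S.core it.2.1) : a ∈ S.letters := by
  simp only [letters, List.mem_append, List.mem_flatMap]
  exact Or.inr ⟨it, hit, ha⟩

/-- Equations in use. -/
noncomputable def usedI : Finset S.I := by
  classical exact (S.items.filterMap (fun it => it.2.1.getLeft?)).toFinset

/-- Unknowns in use. -/
noncomputable def usedX : Finset S.X := by
  classical exact (S.letters.filterMap (fun a => a.1.getRight?)).toFinset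

theorem mem_usedI (it : List ((S.C ⊕ S.X) × Bool) × (S.I ⊕ S.R) × Bool) (hit : it ∈ S.items)
    (i : S.I) (h : it.2.1 = Sum.inl i) : i ∈ S.usedI := by
  simp only [usedI, List.mem_toFinset, List.mem_filterMap]
  exact ⟨it, hit, by rw [h]; rfl⟩

theorem exists_item (i : S.I) (h : i ∈ S.usedI) : ∃ it ∈ S.items, it.2.1 = Sum.inl i := by
  simp only [usedI, List.mem_toFinset, List.mem_filterMap] at h
  obtain ⟨it, hit, h⟩ := h
  exact ⟨it, hit, Sum.getLeft?_eq_some_iff.1 h⟩

theorem mem_usedX (x : S.X) (b : Bool) (h : (Sum.inr x, b) ∈ S.letters) : x ∈ S.usedX := by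
  simp only [usedX, List.mem_toFinset, List.mem_filterMap]
  exact ⟨_, h, rfl⟩

theorem coef_used (L : List ((S.C ⊕ S.X) × Bool)) (hL : ∀ a ∈ L, a ∈ S.letters) (hc : CoefOnly L)
    (a : (S.C ⊕ S.X) × Bool) (ha : a ∈ L) : ∃ c b, a = (Sum.inl c, b) ∧ c ∈ S.usedC := by
  obtain ⟨γ, b⟩ := a
  obtain ⟨c, hcc⟩ := hc _ ha
  simp only at hcc; subst hcc
  exact ⟨c, b, rfl, S.mem_usedC c b (hL _ ha)⟩

theorem false_of_howie (hH : Howie S.usedGroup) : False := by
  classical
  let eX : Fin S.usedX.card ≃ S.usedX := S.usedX.equivFin.symm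
  let eI : Fin S.usedI.card ≃ S.usedI := S.usedI.equivFin.symm
  let ρ : S.C ⊕ S.X → Monoid.Coprod S.usedGroup (FreeGroup (Fin S.usedX.card)) := Sum.elim
    (fun c => if h : S.val c ∈ S.usedGroup then Monoid.Coprod.inl ⟨S.val c, h⟩ else 1)
    (fun x => if h : x ∈ S.usedX then Monoid.Coprod.inr (FreeGroup.of (eX.symm ⟨x, h⟩)) else 1)
  let Φ := FreeGroup.lift ρ
  have hrow : ∀ L j, ((Multiplicative.toAdd (expSum S.usedGroup S.usedX.card
      (Φ (FreeGroup.mk L))) j : ℤ) : ℚ) = expo L (eX j).1 := by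
    intro L j
    induction L with
    | nil => simp [Φ, FreeGroup.lift_mk, expo_nil]
    | cons a L ih =>
      have hsplit : FreeGroup.mk (a :: L) = FreeGroup.mk [a] * FreeGroup.mk L := by
        rw [FreeGroup.mul_mk]; rfl
      rw [hsplit, map_mul, map_mul, toAdd_mul, Pi.add_apply, Int.cast_add, ih, expo_cons,
        Finsupp.add_apply]
      congr 1
      obtain ⟨c | x, b⟩ := a
      · by_cases h : S.val c ∈ S.usedGroup <;>
          cases b <;> simp [Φ, ρ, FreeGroup.lift_mk, lex, expSum, h]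
      · by_cases h : x ∈ S.usedX
        · by_cases hj : eX.symm ⟨x, h⟩ = j
          · have hx : (eX j).1 = x := by rw [← hj]; simp
            cases b <;> simp [Φ, ρ, FreeGroup.lift_mk, lex, expSum, h, hx, hj]
          · have hx : (eX j).1 ≠ x := fun e => hj (by
              apply eX.injective; rw [eX.apply_symm_apply]; exact Subtype.ext e.symm)
            cases b <;> simp [Φ, ρ, FreeGroup.lift_mk, lex, expSum, h,
              Finsupp.single_eq_of_ne hx, Pi.single_eq_of_ne (Ne.symm hj)]
        · have hx : (eX j).1 ≠ x := fun e => h (e ▸ (eX j).2)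
          cases b <;> simp [Φ, ρ, FreeGroup.lift_mk, lex, expSum, h, Finsupp.single_eq_of_ne hx]
  let w : Fin S.usedI.card → Monoid.Coprod S.usedGroup (FreeGroup (Fin S.usedX.card)) :=
    fun i => Φ (FreeGroup.mk (S.core (Sum.inl (eI i).1)))
  have hw : Nonsingular w := by
    refine Fintype.linearIndependent_iff.2 fun g hg => ?_
    have hind := S.indep.comp (fun i => (eI i).1)
      (Subtype.val_injective.comp eI.injective)
    refine Fintype.linearIndependent_iff.1 hind g ?_
    ext x
    simp only [Function.comp, Finsupp.coe_finsetSum, Finset.sum_apply, Finsupp.smul_apply,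
      Finsupp.coe_zero, Pi.zero_apply]
    by_cases hx : x ∈ S.usedX
    · have h1 := congrFun hg (eX.symm ⟨x, hx⟩)
      simp only [Finset.sum_apply, Pi.smul_apply, w, hrow, eX.apply_symm_apply,
        Pi.zero_apply] at h1
      exact h1
    · refine Finset.sum_eq_zero fun i _ => ?_
      obtain ⟨it, hit, hiti⟩ := S.exists_item _ (eI i).2
      rw [expo_apply_eq_zero x, smul_zero]
      intro a ha e
      obtain ⟨γ, b⟩ := a
      simp only at e; subst e
      exact hx (S.mem_usedX x b (S.conj_sub it hit _ (Or.inr (hiti ▸ ha))))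
  obtain ⟨H, _, ι, h, hι, hsol⟩ := hH _ _ w hw
  let θ : FreeGroup (S.C ⊕ S.X) →* H := (Monoid.Coprod.lift ι (FreeGroup.lift h)).comp Φ
  have hcoef : ∀ L : List ((S.C ⊕ S.X) × Bool), (∀ a ∈ L, a ∈ S.letters) → CoefOnly L →
      ∃ g : S.usedGroup, (g : G) = ev S.val L ∧ θ (FreeGroup.mk L) = ι g := by
    intro L hL hc
    induction L with
    | nil => exact ⟨1, by simp [ev_nil], by simp [θ, Φ, FreeGroup.lift_mk]⟩
    | cons a L ih =>
      obtain ⟨g, hg1, hg2⟩ := ih (fun b hb => hL b (List.mem_cons_of_mem _ hb))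
        (fun b hb => hc b (List.mem_cons_of_mem _ hb))
      obtain ⟨c, b, rfl, hcu⟩ := S.coef_used _ hL hc a (List.mem_cons_self ..)
      have hm := S.val_mem c hcu
      have hsplit : FreeGroup.mk ((Sum.inl c, b) :: L) =
          FreeGroup.mk [(Sum.inl c, b)] * FreeGroup.mk L := by rw [FreeGroup.mul_mk]; rfl
      refine ⟨(if b then ⟨S.val c, hm⟩ else (⟨S.val c, hm⟩ : S.usedGroup)⁻¹) * g, ?_, ?_⟩
      · rw [ev_cons]; cases b <;> simp [hg1]
      · rw [hsplit, map_mul, hg2, map_mul]
        congr 1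
        cases b <;> simp [θ, Φ, ρ, FreeGroup.lift_mk, hm]
  have hcore : ∀ it ∈ S.items, θ (FreeGroup.mk (S.core it.2.1)) = 1 := by
    intro it hit
    rcases hj : it.2.1 with i | r
    · have h1 := hsol (eI.symm ⟨i, S.mem_usedI it hit i hj⟩)
      simp only [w, eI.apply_symm_apply] at h1
      exact h1
    · obtain ⟨h1, h2⟩ := S.rel it hit r hj
      rw [hj] at h1 h2
      obtain ⟨g, hg1, hg2⟩ := hcoef _ (fun a ha => S.conj_sub it hit a (Or.inr (hj ▸ ha))) h1
      rw [hg2, show g = 1 from Subtype.ext (hg1.trans h2), map_one]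
  have hflat : ∀ l : List (List ((S.C ⊕ S.X) × Bool) × (S.I ⊕ S.R) × Bool),
      (∀ it ∈ l, it ∈ S.items) → θ (FreeGroup.mk (l.flatMap (block S.core))) = 1 := by
    intro l hl
    induction l with
    | nil => simp [θ, Φ, FreeGroup.lift_mk]
    | cons it l ih =>
      rw [List.flatMap_cons, ← FreeGroup.mul_mk, map_mul,
        ih (fun a ha => hl a (List.mem_cons_of_mem _ ha)), mul_one]
      obtain ⟨cj, j, σ⟩ := it
      have h1 := hcore _ (hl _ (List.mem_cons_self ..))
      cases σ
      · simp only [block, Bool.false_eq_true, if_false] at h1 ⊢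
        rw [← FreeGroup.mul_mk, ← FreeGroup.mul_mk, ← FreeGroup.inv_mk (L := cj),
          ← FreeGroup.inv_mk (L := S.core j), map_mul, map_mul, map_inv, map_inv, h1]
        group
      · simp only [block, if_true] at h1 ⊢
        rw [← FreeGroup.mul_mk, ← FreeGroup.mul_mk, ← FreeGroup.inv_mk (L := cj), map_mul,
          map_mul, map_inv, h1]
        group
  obtain ⟨g, hg1, hg2⟩ := hcoef S.lhs
    (fun a ha => by simp only [letters, List.mem_append]; exact Or.inl ha) S.coef_lhs
  have h1 : ι g = 1 := by rw [← hg2, S.ident]; exact hflat _ fun a ha => ha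
  refine S.ev_lhs ?_
  rw [← hg1, show g = 1 from hι (by rw [h1, map_one]), OneMemClass.coe_one]

end Stage

end Vale.Agent.P174
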