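import Vale.Agent.P174.Rows
import Vale.Agent.P174.Defs

/-!
The tower argument.
-/

namespace Vale.Agent.P174

universe u

variable {G : Type u} [Group G]

/-- Value of a word, unknowns read as `1`. -/
noncomputable def ev {C X : Type u} (val : C → G) (L : List ((C ⊕ X) × Bool)) : G :=
  FreeGroup.lift (Sum.elim val (fun _ => 1)) (FreeGroup.mk L)

/-- A word without unknowns. -/
def CoefOnly {C X : Type u} (L : List ((C ⊕ X) × Bool)) : Prop := ∀ a ∈ L, ∃ c, a.1 = Sum.inl c

/-- A conjugate of a core word or of its inverse. -/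
def block {C X J : Type u} (core : J → List ((C ⊕ X) × Bool))
    (it : List ((C ⊕ X) × Bool) × J × Bool) : List ((C ⊕ X) × Bool) :=
  it.1 ++ ((if it.2.2 then core it.2.1 else FreeGroup.invRev (core it.2.1)) ++
    FreeGroup.invRev it.1)

/-- A stage of the tower. -/
structure Stage (G : Type u) [Group G] : Type (u + 1) where
  /-- vertices -/
  V : Type u
  /-- coefficient edges -/
  C : Type u
  /-- unknown edges -/
  X : Type u
  /-- equations -/
  I : Type u
  /-- coefficient relations -/
  R : Type u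
  /-- initial vertex of an edge -/
  s : C ⊕ X → V
  /-- final vertex of an edge -/
  t : C ⊕ X → V
  /-- value of a coefficient edge -/
  val : C → G
  /-- core words -/
  core : I ⊕ R → List ((C ⊕ X) × Bool)
  /-- base vertices of the core words -/
  base : I ⊕ R → V
  /-- base vertex of the identity -/
  o : V
  /-- the left side of the identity -/
  lhs : List ((C ⊕ X) × Bool)
  /-- the right side of the identity -/
  items : List (List ((C ⊕ X) × Bool) × (I ⊕ R) × Bool)
  indep : LinearIndependent ℚ (fun i => expo (core (Sum.inl i)))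
  path_lhs : IsPath s t o lhs o
  coef_lhs : CoefOnly lhs
  ev_lhs : ev val lhs ≠ 1
  path_conj : ∀ it ∈ items, IsPath s t o it.1 (base it.2.1)
  path_core : ∀ it ∈ items, IsPath s t (base it.2.1) (core it.2.1) (base it.2.1)
  rel : ∀ it ∈ items, ∀ r, it.2.1 = Sum.inr r →
    CoefOnly (core it.2.1) ∧ ev val (core it.2.1) = 1
  ident : FreeGroup.mk lhs = FreeGroup.mk (items.flatMap (block core))

namespace Stage

variable (S : Stage G)

/-- All visited vertices, listed with the fixed positions. -/
def positions : List S.V :=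
  visits S.s S.t S.o S.lhs ++ S.items.flatMap
    (fun it => visits S.s S.t S.o it.1 ++ visits S.s S.t (S.base it.2.1) (S.core it.2.1))

/-- All letters. -/
def letters : List ((S.C ⊕ S.X) × Bool) :=
  S.lhs ++ S.items.flatMap (fun it => it.1 ++ S.core it.2.1)

/-- Coefficient edges in use. -/
def usedC : List S.C := S.letters.filterMap (fun a => a.1.getLeft?)

theorem mem_usedC (c : S.C) (b : Bool) (h : (Sum.inl c, b) ∈ S.letters) : c ∈ S.usedC :=
  List.mem_filterMap.2 ⟨_, h, rfl⟩

theorem ends_mem (c : S.C) (h : c ∈ S.usedC) :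
    S.s (Sum.inl c) ∈ S.positions ∧ S.t (Sum.inl c) ∈ S.positions := by
  obtain ⟨a, ha, hac⟩ := List.mem_filterMap.1 h
  have hγ : a.1 = Sum.inl c := Sum.getLeft?_eq_some_iff.1 hac
  simp only [letters, List.mem_append, List.mem_flatMap] at ha
  simp only [positions, List.mem_append, List.mem_flatMap]
  rcases ha with ha | ⟨it, hit, ha | ha⟩
  · have h1 := mem_visits S.s S.t S.o S.o S.lhs S.path_lhs a ha
    rw [hγ] at h1; exact ⟨Or.inl h1.1, Or.inl h1.2⟩
  · have h1 := mem_visits S.s S.t _ _ _ (S.path_conj it hit) a ha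
    rw [hγ] at h1; exact ⟨Or.inr ⟨it, hit, Or.inl h1.1⟩, Or.inr ⟨it, hit, Or.inl h1.2⟩⟩
  · have h1 := mem_visits S.s S.t _ _ _ (S.path_core it hit) a ha
    rw [hγ] at h1; exact ⟨Or.inr ⟨it, hit, Or.inr h1.1⟩, Or.inr ⟨it, hit, Or.inr h1.2⟩⟩

end Stage

theorem ev_cons {C X : Type u} (val : C → G) (a : (C ⊕ X) × Bool) (L : List ((C ⊕ X) × Bool)) :
    ev val (a :: L) =
      (if a.2 then Sum.elim val (fun _ => 1) a.1 else (Sum.elim val (fun _ => 1) a.1)⁻¹) *
        ev val L := by
  obtain ⟨γ, b⟩ := a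
  cases b <;> simp [ev, FreeGroup.lift_mk]

theorem ev_nil {C X : Type u} (val : C → G) : ev val ([] : List ((C ⊕ X) × Bool)) = 1 := by
  simp [ev, FreeGroup.lift_mk]

/-- The gauged value of a coefficient edge. -/
def gval {V C X : Type u} (s t : C ⊕ X → V) (τ : V → G) (val : C → G) (c : C) : G :=
  τ (s (Sum.inl c)) * val c * (τ (t (Sum.inl c)))⁻¹

theorem ev_gauge {V C X : Type u} (s t : C ⊕ X → V) (τ : V → G) (val : C → G) (v w : V)
    (L : List ((C ⊕ X) × Bool)) (hp : IsPath s t v L w) (hc : CoefOnly L) :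
    ev (gval s t τ val) L = τ v * ev val L * (τ w)⁻¹ := by
  induction L generalizing v with
  | nil => simp only [IsPath] at hp; subst hp; simp [ev_nil]
  | cons a L ih =>
    obtain ⟨h1, h2⟩ := hp
    obtain ⟨c, hcc⟩ := hc a (List.mem_cons_self ..)
    rw [ev_cons, ev_cons, ih _ h2 (fun b hb => hc b (List.mem_cons_of_mem _ hb))]
    obtain ⟨γ, b⟩ := a
    simp only at hcc; subst hcc
    cases b <;> simp [lsrc, ldst, gval] at h1 ⊢ <;> subst h1 <;> group

/-- Spanning forest gauge: a list of edges can be gauged so that the edges of value one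
connect the two ends of every edge. -/
theorem exists_gauge {V C X : Type u} (s t : C ⊕ X → V) (val : C → G) (Ls : List C) :
    ∃ τ : V → G, ∀ c ∈ Ls, Relation.EqvGen
      (fun v w => ∃ d ∈ Ls, gval s t τ val d = 1 ∧ s (Sum.inl d) = v ∧ t (Sum.inl d) = w)
      (s (Sum.inl c)) (t (Sum.inl c)) := by
  classical
  induction Ls with
  | nil => exact ⟨fun _ => 1, by simp⟩
  | cons e Ls ih =>
    obtain ⟨τ, hτ⟩ := ih
    let R := fun v w => ∃ d ∈ Ls, gval s t τ val d = 1 ∧ s (Sum.inl d) = v ∧ t (Sum.inl d) = w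
    by_cases hconn : Relation.EqvGen R (s (Sum.inl e)) (t (Sum.inl e))
    · refine ⟨τ, fun c hc => ?_⟩
      have h1 : Relation.EqvGen R (s (Sum.inl c)) (t (Sum.inl c)) := by
        rcases List.mem_cons.1 hc with rfl | hc'
        · exact hconn
        · exact hτ c hc'
      exact Relation.EqvGen.mono (fun _ _ ⟨d, hd, h⟩ => ⟨d, List.mem_cons_of_mem _ hd, h⟩) _ _ h1
    · let a := τ (s (Sum.inl e)) * val e * (τ (t (Sum.inl e)))⁻¹
      let τ' : V → G := fun v => if Relation.EqvGen R (t (Sum.inl e)) v then a * τ v else τ v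
      refine ⟨τ', fun c hc => ?_⟩
      have hs : ¬ Relation.EqvGen R (t (Sum.inl e)) (s (Sum.inl e)) :=
        fun h => hconn (Relation.EqvGen.symm _ _ h)
      have he : gval s t τ' val e = 1 := by
        simp [gval, τ', hs, Relation.EqvGen.refl, a]
      have hmono : ∀ v w, R v w → ∃ d ∈ e :: Ls,
          gval s t τ' val d = 1 ∧ s (Sum.inl d) = v ∧ t (Sum.inl d) = w := by
        rintro v w ⟨d, hd, hd1, hdv, hdw⟩
        refine ⟨d, List.mem_cons_of_mem _ hd, ?_, hdv, hdw⟩
        have hedge : R (s (Sum.inl d)) (t (Sum.inl d)) := ⟨d, hd, hd1, rfl, rfl⟩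
        by_cases h1 : Relation.EqvGen R (t (Sum.inl e)) (s (Sum.inl d))
        · have h2 : Relation.EqvGen R (t (Sum.inl e)) (t (Sum.inl d)) :=
            Relation.EqvGen.trans _ _ _ h1 (Relation.EqvGen.rel _ _ hedge)
          unfold gval at hd1 ⊢
          simp only [τ', h1, h2, if_true]
          calc a * τ (s (Sum.inl d)) * val d * (a * τ (t (Sum.inl d)))⁻¹
              = a * (τ (s (Sum.inl d)) * val d * (τ (t (Sum.inl d)))⁻¹) * a⁻¹ := by group
            _ = 1 := by rw [hd1]; group
        · have h2 : ¬ Relation.EqvGen R (t (Sum.inl e)) (t (Sum.inl d)) := fun h2 => h1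
            (Relation.EqvGen.trans _ _ _ h2
              (Relation.EqvGen.symm _ _ (Relation.EqvGen.rel _ _ hedge)))
          unfold gval at hd1 ⊢
          simp only [τ', h1, h2, if_false]
          exact hd1
      rcases List.mem_cons.1 hc with rfl | hc'
      · exact Relation.EqvGen.rel _ _ ⟨_, List.mem_cons_self .., he, rfl, rfl⟩
      · exact Relation.EqvGen.mono hmono _ _ (hτ c hc')

end Vale.Agent.P174
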